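import Mathlib.GroupTheory.FreeGroup.Basic
import Mathlib.GroupTheory.Coprod.Basic
import Mathlib.GroupTheory.Finiteness
import Mathlib.GroupTheory.Index
import Mathlib.Computability.RE
import Mathlib.Logic.Relation

/-! Interfaces between the modules of the P193 route (spec: team note 1232). -/

namespace Vale.Agent.P193

/-- A sequential row transducer that halts from every row and whose halted rows
answer a predicate on words. -/
structure RowMachine {n : ℕ} (P : List (Fin n) → Prop) where
  A : Type
  fintypeA : Fintype A
  first : A
  last : A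
  head : Bool → A
  letter : Fin n → A
  letter_inj : Function.Injective letter
  head_inj : Function.Injective head
  first_ne_last : first ≠ last
  letter_ne : ∀ i, letter i ≠ first ∧ letter i ≠ last ∧ ∀ b, letter i ≠ head b
  head_ne : ∀ b, head b ≠ first ∧ head b ≠ last
  Q : Type
  fintypeQ : Fintype Q
  start : Q
  accepts : Q → Prop
  trans : Finset (Q × A × List A × Q)
  Qh : Type
  fintypeQh : Fintype Qh
  hstart : Qh
  hnext : Qh → A → Option Qh
  haccepts : Qh → Prop

namespace RowMachine

variable {n : ℕ} {P : List (Fin n) → Prop} (M : RowMachine P)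

/-- A run of the transducer. -/
inductive Run : M.Q → List (M.Q × M.A × List M.A × M.Q) → Prop
  | done {q} : M.accepts q → Run q []
  | cons {q a b q' rest} : (q, a, b, q') ∈ M.trans → Run q' rest →
      Run q ((q, a, b, q') :: rest)

/-- The row read by a run. -/
def inRow (l : List (M.Q × M.A × List M.A × M.Q)) : List M.A := l.map fun e => e.2.1

/-- The row written by a run. -/
def outRow (l : List (M.Q × M.A × List M.A × M.Q)) : List M.A :=
  (l.map fun e => e.2.2.1).flatten

/-- One step on rows. -/
def Step (r r' : List M.A) : Prop := ∃ l, M.Run M.start l ∧ M.inRow l = r ∧ M.outRow l = r'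

/-- A halted row. -/
def Halted (r : List M.A) : Prop :=
  ∃ q, r.foldl (fun o a => o.bind fun s => M.hnext s a) (some M.hstart) = some q ∧ M.haccepts q

/-- A well formed row: one `first` at the beginning and one `last` at the end. -/
def RowOK (r : List M.A) : Prop :=
  ∃ mid, r = M.first :: (mid ++ [M.last]) ∧ M.first ∉ mid ∧ M.last ∉ mid

/-- The starting row of a word in one of the two modes. -/
def initRow (w : List (Fin n)) (mode : Bool) : List M.A :=
  M.first :: (w.map M.letter ++ [M.head mode, M.last])

/-- The laws of a row machine. -/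
structure Lawful : Prop where
  unambiguous : ∀ l l', M.Run M.start l → M.Run M.start l' → M.inRow l = M.inRow l' → l = l'
  step_ok : ∀ r r', M.Step r r' → M.RowOK r ∧ M.RowOK r'
  halted_ok : ∀ r, M.Halted r → M.RowOK r
  halted_stops : ∀ r r', M.Halted r → ¬ M.Step r r'
  wf : WellFounded fun r' r => M.Step r r'
  correct : ∀ w mode, (∃ r, Relation.ReflTransGen M.Step (M.initRow w mode) r ∧ M.Halted r) ↔
    (P w ↔ mode = true)

end RowMachine

/-- A group has no mixed identity, even off a finite set. -/
def MixedIdentityFree (Γ : Type) [Group Γ] : Prop :=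
  ∀ w : Monoid.Coprod Γ (FreeGroup Unit), w ≠ 1 → ∀ E : Finset Γ,
    ∃ u, u ∉ E ∧ Monoid.Coprod.lift (MonoidHom.id Γ) (FreeGroup.lift fun _ => u) w ≠ 1

/-- The ambient group `Γ₀ × F₂ × F₂` of the construction. -/
structure Ambient (G : Type) [Group G] where
  Γ₀ : Type
  group : Group Γ₀
  n : ℕ
  gen : Fin n → Γ₀ × FreeGroup (Fin 2) × FreeGroup (Fin 2)
  gen_surj : ∀ g, ∃ w : List (Fin n), (w.map gen).prod = g
  wp : ComputablePred fun w : List (Fin n) => (w.map gen).prod = 1
  mif : MixedIdentityFree Γ₀
  mif_free : MixedIdentityFree (FreeGroup (Fin 2))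
  emb : G →* Γ₀
  emb_inj : Function.Injective emb

/-- Every free group of finite rank at least two is of finite index in the one of rank two. -/
def FiniteIndexFree : Prop :=
  ∀ (A : Type), Finite A → Nontrivial A →
    ∃ e : FreeGroup A →* FreeGroup (Fin 2), Function.Injective e ∧ e.range.FiniteIndex

end Vale.Agent.P193
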