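import Mathlib

/-! A total Post-Turing machine deciding a computable predicate on words, with the word spelled
letter by letter on the initial tape and the answer in the final head symbol (P193, module 1). -/

namespace Vale.Agent.P193.Machine

open Turing Turing.PartrecToTM2

variable {n : ℕ}

/-- Code of a word, built from its last letter. -/
def encRev : List (Fin n) → ℕ
  | [] => 0
  | i :: v => (2 * encRev v + 1) * 2 ^ ((i : ℕ) + 1)

/-- Code of a word. -/
def enc (w : List (Fin n)) : ℕ := encRev w.reverse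

/-- The tape cells spelling a letter. -/
def bits (i : Fin n) : List Γ' := Γ'.bit1 :: List.replicate ((i : ℕ) + 1) Γ'.bit0

theorem odd_pow_inj : ∀ {i j a b : ℕ},
    (2 * a + 1) * 2 ^ i = (2 * b + 1) * 2 ^ j → i = j ∧ a = b
  | 0, 0, a, b, h => ⟨rfl, by simp at h; omega⟩
  | 0, j + 1, a, b, h => by
    rw [pow_zero, mul_one, pow_succ, ← mul_assoc] at h; omega
  | i + 1, 0, a, b, h => by
    rw [pow_zero, mul_one, pow_succ, ← mul_assoc] at h; omega
  | i + 1, j + 1, a, b, h => by
    rw [pow_succ, pow_succ, ← mul_assoc, ← mul_assoc] at h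
    obtain ⟨h1, h2⟩ := odd_pow_inj (i := i) (j := j) (Nat.eq_of_mul_eq_mul_right (by norm_num) h)
    exact ⟨by omega, h2⟩

theorem encRev_inj : ∀ v v' : List (Fin n), encRev v = encRev v' → v = v'
  | [], [], _ => rfl
  | [], i :: v, h => by simp [encRev] at h
  | i :: v, [], h => by simp [encRev] at h
  | i :: v, j :: v', h => by
    obtain ⟨h1, h2⟩ := odd_pow_inj h
    rw [encRev_inj v v' h2, Fin.ext (show (i : ℕ) = j by omega)]

theorem enc_inj (w w' : List (Fin n)) (h : enc w = enc w') : w = w' :=
  List.reverse_injective (encRev_inj _ _ h)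

theorem trNat_odd (a : ℕ) : trNat (2 * a + 1) = Γ'.bit1 :: trNat a := by
  have h : ((2 * a + 1 : ℕ) : Num) = (a : Num).bit1 := by
    apply Num.to_nat_inj.1
    rw [Num.to_of_nat, Num.cast_bit1, Num.to_of_nat]
    try omega
  unfold trNat
  rw [h]
  cases (a : Num) <;> rfl

theorem trNat_double (a : ℕ) (ha : a ≠ 0) : trNat (2 * a) = Γ'.bit0 :: trNat a := by
  have h : ((2 * a : ℕ) : Num) = (a : Num).bit0 := by
    apply Num.to_nat_inj.1
    rw [Num.to_of_nat, Num.cast_bit0, Num.to_of_nat]
    try omega
  unfold trNat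
  rw [h]
  have h' : (a : Num) ≠ 0 := fun e => ha (by simpa using congrArg (fun m : Num => (m : ℕ)) e)
  revert h'
  cases (a : Num) with
  | zero => intro h'; exact absurd rfl h'
  | pos p => intro _; rfl

theorem trNat_pow (a : ℕ) : ∀ i, trNat ((2 * a + 1) * 2 ^ i) =
    List.replicate i Γ'.bit0 ++ Γ'.bit1 :: trNat a
  | 0 => by simp [trNat_odd]
  | i + 1 => by
    rw [show (2 * a + 1) * 2 ^ (i + 1) = 2 * ((2 * a + 1) * 2 ^ i) by ring,
      trNat_double _ (by positivity), trNat_pow a i]
    rfl

theorem trNat_enc (w : List (Fin n)) : (trNat (enc w)).reverse = w.flatMap bits := by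
  suffices h : ∀ v : List (Fin n), (trNat (encRev v)).reverse = v.reverse.flatMap bits by
    simpa [enc] using h w.reverse
  intro v
  induction v with
  | nil => simp [encRev]
  | cons i v ih =>
    simp [encRev, trNat_pow, List.flatMap_append, ← ih, bits, List.replicate_succ']
    rw [← List.replicate_succ', List.replicate_succ]

theorem primrec_encRev : Primrec (encRev : List (Fin n) → ℕ) := by
  have hp : Primrec₂ fun a i : ℕ => a * 2 ^ i :=
    Primrec.nat_mul.comp₂ Primrec₂.left
      ((Primrec.nat_rec₁ 1 (Primrec.nat_mul.comp₂ (Primrec₂.const 2) Primrec₂.right)).of_eq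
        (fun i => by induction i <;> simp_all [pow_succ, Nat.mul_comm]) |>.comp₂ Primrec₂.right)
  have h : Primrec fun l : List (Fin n) =>
      l.foldr (fun (i : Fin n) acc => (2 * acc + 1) * 2 ^ ((i : ℕ) + 1)) 0 := by
    refine Primrec.list_foldr (f := fun l : List (Fin n) => l) (g := fun _ => (0 : ℕ))
      (h := fun _ p => (2 * p.2 + 1) * 2 ^ ((p.1 : ℕ) + 1)) Primrec.id (Primrec.const 0) ?_
    exact (hp.comp (Primrec.succ.comp (Primrec.nat_mul.comp (Primrec.const 2)
        (Primrec.snd.comp Primrec.snd)))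
      (Primrec.succ.comp (Primrec.fin_val.comp (Primrec.fst.comp Primrec.snd)))).to₂
  exact h.of_eq fun l => by induction l <;> simp_all [encRev]

theorem primrec_enc : Primrec (enc : List (Fin n) → ℕ) :=
  primrec_encRev.comp Primrec.list_reverse

/-- A code that returns the empty list exactly on the codes of the words outside `P`. -/
theorem exists_code (P : List (Fin n) → Prop) (hP : ComputablePred P) :
    ∃ c : ToPartrec.Code, ∀ w, ∃ v, v ∈ c.eval [enc w] ∧ (v ≠ [] ↔ P w) := by
  obtain ⟨hdec, hc⟩ := hP
  let p : ℕ → ℕ → Option ℕ := fun m k =>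
    (Encodable.decode (α := List (Fin n)) k).bind fun w =>
      if enc w = m then some (cond (decide (P w)) 1 0) else none
  have hp : Computable₂ p := by
    have hd : Computable fun w : List (Fin n) => cond (decide (P w)) 1 0 :=
      Computable.cond hc (Computable.const 1) (Computable.const 0)
    refine Computable.option_bind
      ((Primrec.decode (α := List (Fin n))).to_comp.comp Computable.snd) ?_
    have heq : Computable fun x : (ℕ × ℕ) × List (Fin n) => decide (enc x.2 = x.1.1) :=
      ((Primrec.eq (α := ℕ)).decide.to_comp).comp (primrec_enc.to_comp.comp Computable.snd)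
        (Computable.fst.comp Computable.fst)
    exact (Computable.cond heq (Computable.option_some.comp (hd.comp Computable.snd))
      (Computable.const none)).of_eq (fun x => by by_cases h : enc x.2 = x.1.1 <;> simp [h])
  have hg : Partrec fun m => Nat.rfindOpt (p m) := Partrec.rfindOpt hp
  obtain ⟨c, hc'⟩ := ToPartrec.Code.exists_code (Nat.Partrec'.part_iff₁.2 hg)
  refine ⟨(ToPartrec.Code.case ToPartrec.Code.id ToPartrec.Code.id).comp c, fun w => ?_⟩
  have hsome : p (enc w) (Encodable.encode w) = some (cond (decide (P w)) 1 0) := by simp [p]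
  have hdom : (Nat.rfindOpt (p (enc w))).Dom :=
    Nat.rfindOpt_dom.2 ⟨_, _, hsome⟩
  have hval : (Nat.rfindOpt (p (enc w))).get hdom = cond (decide (P w)) 1 0 := by
    obtain ⟨k, hk⟩ := Nat.rfindOpt_spec (Part.get_mem hdom)
    simp only [p, Option.mem_def, Option.bind_eq_some_iff, Option.ite_none_right_eq_some,
      Option.some.injEq] at hk
    obtain ⟨w', -, he, hv⟩ := hk
    rw [← hv, enc_inj w' w he]
  have h := hc' ⟨[enc w], rfl⟩
  change c.eval [enc w] = pure <$> Nat.rfindOpt (p (enc w)) at h
  rw [← Part.some_get hdom, hval] at h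
  refine ⟨if P w then [0] else [], ?_⟩
  simp only [ToPartrec.Code.comp_eval, h, Part.map_eq_map, Part.map_some]
  by_cases hw : P w <;> simp [hw, ToPartrec.Code.case_eval, pure]

/-- A finite deterministic machine that halts on every word with the answer under its head. -/
theorem exists_decider (P : List (Fin n) → Prop) (hP : ComputablePred P) :
    ∃ (Γ Λ : Type) (_ : Inhabited Γ) (_ : Fintype Γ) (_ : Inhabited Λ)
      (M : TM0.Machine Γ Λ) (S : Finset Λ) (a₀ : Γ) (β : Fin n → Γ × List Γ) (ans : Γ → Bool),
      TM0.Supports M ↑S ∧ ∀ w : List (Fin n), ∃ c : TM0.Cfg Γ Λ,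
        TM0.Reaches M (TM0.init (a₀ :: w.flatMap fun i => (β i).1 :: (β i).2)) c ∧
          TM0.step M c = none ∧ (ans c.Tape.head = true ↔ P w) := by
  classical
  obtain ⟨c, hc⟩ := exists_code P hP
  let _ : Inhabited Λ' := ⟨trNormal c Cont'.halt⟩
  let _ : Fintype K' := ⟨{K'.main, K'.rev, K'.aux, K'.stack}, fun k => by cases k <;> simp⟩
  let M2 : Λ' → TM2.Stmt (fun _ : K' => Γ') Λ' (Option Γ') := tr
  let cell : Γ' → TM2to1.Γ' K' (fun _ => Γ') := fun a =>
    (false, Function.update (fun _ => none) K'.main (some a))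
  refine ⟨TM2to1.Γ' K' (fun _ => Γ'), TM1to0.Λ' (TM2to1.tr M2), inferInstance, inferInstance,
    inferInstance, TM1to0.tr (TM2to1.tr M2),
    TM1to0.trStmts _ (TM2to1.trSupp M2 (codeSupp c Cont'.halt)),
    (true, Function.update (fun _ => none) K'.main (some Γ'.cons)),
    fun i => (cell Γ'.bit1, (List.replicate ((i : ℕ) + 1) Γ'.bit0).map cell),
    fun a => (a.2 K'.main).isSome,
    TM1to0.tr_supports _ (TM2to1.tr_supports _ (tr_supports c Cont'.halt)), fun w => ?_⟩
  obtain ⟨v, hv, hans⟩ := hc w
  have hinit : ((true, Function.update (fun _ => none) K'.main (some Γ'.cons)) ::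
      w.flatMap fun i : Fin n => cell Γ'.bit1 :: (List.replicate ((i : ℕ) + 1) Γ'.bit0).map cell) =
      TM2to1.trInit K'.main (trList [enc w]) := by
    simp only [TM2to1.trInit, trList, List.reverse_append, List.reverse_cons, List.reverse_nil,
      List.nil_append, List.cons_append, trNat_enc]
    refine congrArg (List.cons _) ?_
    refine Eq.trans ?_ List.map_flatMap.symm
    exact congrArg (fun f => w.flatMap f) (funext fun i => by simp [bits, cell])
  have h2 : trList v ∈ TM2.eval M2 K'.main (trList [enc w]) := by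
    have hi : (TM2.init K'.main (trList [enc w]) : Cfg') = init c [enc w] := by
      simp only [TM2.init, init]
      congr 1
      funext k; cases k <;> rfl
    refine (Part.mem_map_iff _).2 ⟨halt v, ?_, rfl⟩
    change halt v ∈ StateTransition.eval (TM2.step tr) _
    rw [hi, tr_eval]
    exact (Part.mem_map_iff _).2 ⟨v, hv, rfl⟩
  obtain ⟨L₁, hL₁⟩ := Part.dom_iff_mem.1
    ((TM2to1.tr_eval_dom M2 K'.main (trList [enc w])).2 (Part.dom_iff_mem.2 ⟨_, h2⟩))
  obtain ⟨St, L', hL', hproj, hSk⟩ := TM2to1.tr_eval M2 K'.main _ hL₁ h2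
  rw [← TM1to0.tr_eval] at hL₁
  obtain ⟨cfg, hcfg, hR⟩ := (Part.mem_map_iff _).1 hL₁
  obtain ⟨hreach, hstop⟩ := StateTransition.mem_eval.1 hcfg
  refine ⟨cfg, (congrArg (fun L => TM0.Reaches _ (TM0.init L) cfg) hinit).mpr hreach, hstop, ?_⟩
  have hhead : cfg.Tape.head = (true, L'.head) := by
    have : cfg.Tape.right₀.head = (true, L'.head) := by
      rw [hR, ← hL']; exact ListBlank.head_cons _ _
    simpa [Tape.right₀] using this
  have hmain : L'.head K'.main = (ListBlank.mk ((trList v).map some).reverse).head := by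
    have := congrArg ListBlank.head (hproj K'.main)
    rw [hSk, ListBlank.head_map] at this
    exact this
  rw [hhead, ← hans]
  show (L'.head K'.main).isSome = true ↔ v ≠ []
  rw [hmain, ListBlank.head_mk]
  rcases v with - | ⟨a, v⟩
  · simp
    rfl
  · have hne : ((trList (a :: v)).map some).reverse ≠ [] := by simp
    obtain ⟨x, l, hl⟩ := List.exists_cons_of_ne_nil hne
    have hx : x ∈ ((trList (a :: v)).map some).reverse := by rw [hl]; exact List.mem_cons_self
    rw [hl]
    simp only [List.mem_reverse, List.mem_map] at hx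
    obtain ⟨y, -, rfl⟩ := hx
    simp

end Vale.Agent.P193.Machine
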