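import Mathlib
import Vale.Agent.P193.Full.Interfaces

/-! Simulation of a Post-Turing machine by an unambiguous row transducer with a countdown.
A row carries the input in every zone; when the countdown runs out the simulation restarts from
that input with a countdown one longer (P193, module 1). -/

namespace Vale.Agent.P193.Machine

open Turing

variable {n : ℕ} {Γ Q : Type}

/-- The alphabet of rows. -/
inductive Sym (n : ℕ) (Γ Q : Type) where
  | first
  | last
  | hd (b : Bool)
  | inp (i : Fin n)
  | sep (b : Bool)
  | cell (o : Option (Fin n)) (x : Γ) (q : Option Q)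
  | used
  | fresh
  deriving Fintype

/-- The states of the transducer. -/
inductive St (Q : Type) where
  | start
  | init
  | initEnd
  | s0
  | sL
  | needL (q : Q)
  | putR (q : Q)
  | sR
  | sU
  | sV
  | r
  | rR
  | rU
  | fin
  deriving Fintype

/-- The states of the halting test. -/
inductive Hs where
  | h0
  | hL
  | hR (a : Bool)
  | hU
  | hEnd
  deriving Fintype

/-- Data of a machine with a finite state space. -/
structure Data (n : ℕ) (Γ Q : Type) where
  M : Q → Γ → Option (Q × TM0.Stmt Γ)
  q0 : Q
  a0 : Γ
  β : Fin n → Γ × List Γ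
  ans : Γ → Bool
  blank : Γ

/-- A tape cell without head. -/
def pl (p : Option (Fin n) × Γ) : Sym n Γ Q := Sym.cell p.1 p.2 none

/-- The tape zone of a row; `L` lists the left part from the head outwards. -/
structure Zone (n : ℕ) (Γ Q : Type) where
  L : List (Option (Fin n) × Γ)
  o : Option (Fin n)
  x : Γ
  q : Q
  R : List (Option (Fin n) × Γ)

/-- The countdown part of a row. -/
def tick (u v : ℕ) : List (Sym n Γ Q) :=
  List.replicate u Sym.used ++ List.replicate v Sym.fresh ++ [Sym.last]

/-- The symbols of a zone. -/
def zsyms (z : Zone n Γ Q) : List (Sym n Γ Q) :=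
  z.L.reverse.map pl ++ Sym.cell z.o z.x (some z.q) :: z.R.map pl

/-- A row without its first symbol. -/
def body (z : Zone n Γ Q) (b : Bool) (u v : ℕ) : List (Sym n Γ Q) :=
  zsyms z ++ Sym.sep b :: tick u v

/-- The input recorded in a zone. -/
def zin (z : Zone n Γ Q) : List (Fin n) :=
  (z.L.reverse ++ (z.o, z.x) :: z.R).filterMap Prod.fst

variable (D : Data n Γ Q)

/-- The tape cells of a word. -/
def cellsOf (w : List (Fin n)) : List (Option (Fin n) × Γ) :=
  w.flatMap fun i => (some i, (D.β i).1) :: (D.β i).2.map fun x => (none, x)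

/-- The initial zone of a word. -/
def z0 (w : List (Fin n)) : Zone n Γ Q := ⟨[], none, D.a0, D.q0, cellsOf D w⟩

/-- What a restart writes for a cell. -/
def blk (o : Option (Fin n)) : List (Sym n Γ Q) := (cellsOf D o.toList).map pl

/-- The cell that starts a simulation. -/
def mark0 : Sym n Γ Q := Sym.cell none D.a0 (some D.q0)

/-- The transitions of the transducer. -/
inductive Edge : St Q → Sym n Γ Q → List (Sym n Γ Q) → St Q → Prop
  | init0 : Edge .start .first [.first, mark0 D] .init
  | inp (i) : Edge .init (.inp i) (blk D (some i)) .init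
  | hd (b) : Edge .init (.hd b) [.sep b, .fresh] .initEnd
  | initLast : Edge .initEnd .last [.last] .fin
  | sim0 : Edge .start .first [.first] .s0
  | res0 : Edge .start .first [.first, mark0 D] .r
  | skip {s} (hs : s = .s0 ∨ s = .sL) (o x) : Edge s (.cell o x none) [.cell o x none] .sL
  | guess {s} (hs : s = .s0 ∨ s = .sL) (o x q') :
      Edge s (.cell o x none) [.cell o x (some q')] (.needL q')
  | write {s} (hs : s = .s0 ∨ s = .sL) (o x q q' a) (h : D.M q x = some (q', .write a)) :
      Edge s (.cell o x (some q)) [.cell o a (some q')] .sR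
  | right {s} (hs : s = .s0 ∨ s = .sL) (o x q q') (h : D.M q x = some (q', .move .right)) :
      Edge s (.cell o x (some q)) [.cell o x none] (.putR q')
  | leftEnd (o x q q') (h : D.M q x = some (q', .move .left)) :
      Edge .s0 (.cell o x (some q)) [.cell none D.blank (some q'), .cell o x none] .sR
  | left (o x q q') (h : D.M q x = some (q', .move .left)) :
      Edge (.needL q') (.cell o x (some q)) [.cell o x none] .sR
  | put (o x q') : Edge (.putR q') (.cell o x none) [.cell o x (some q')] .sR
  | putEnd (b q') : Edge (.putR q') (.sep b) [.cell none D.blank (some q'), .sep b] .sU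
  | copyR (o x) : Edge .sR (.cell o x none) [.cell o x none] .sR
  | sepR (b) : Edge .sR (.sep b) [.sep b] .sU
  | used : Edge .sU .used [.used] .sU
  | spend : Edge .sU .fresh [.used] .sV
  | fresh : Edge .sV .fresh [.fresh] .sV
  | simLast : Edge .sV .last [.last] .fin
  | resL (o x) : Edge .r (.cell o x none) (blk D o) .r
  | resMark (o x q) (h : D.M q x ≠ none) : Edge .r (.cell o x (some q)) (blk D o) .rR
  | resR (o x) : Edge .rR (.cell o x none) (blk D o) .rR
  | resSep (b) : Edge .rR (.sep b) [.sep b] .rU
  | refill : Edge .rU .used [.fresh] .rU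
  | resLast : Edge .rU .last [.fresh, .last] .fin

theorem Edge.det {q q' : St Q} {a : Sym n Γ Q} {b b' : List (Sym n Γ Q)}
    (h : Edge D q a b q') (h' : Edge D q a b' q') : b = b' := by
  cases h <;> cases h' <;> simp_all

variable [Fintype Γ] [Fintype Q]

theorem edgeSet_finite :
    {e : St Q × Sym n Γ Q × List (Sym n Γ Q) × St Q | Edge D e.1 e.2.1 e.2.2.1 e.2.2.2}.Finite := by
  refine Set.Finite.of_finite_image (f := fun e => (e.1, e.2.1, e.2.2.2)) (Set.toFinite _) ?_
  rintro ⟨q, a, b, q'⟩ h ⟨q₁, a₁, b₁, q₁'⟩ h₁ e
  simp only [Prod.mk.injEq] at e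
  obtain ⟨rfl, rfl, rfl⟩ := e
  exact congrArg (fun t => (q, a, t, q')) (Edge.det D h h₁)

/-- The halting test. -/
noncomputable def hnext : Hs → Sym n Γ Q → Option Hs
  | .h0, .first => some .hL
  | .hL, .cell _ _ none => some .hL
  | .hL, .cell _ x (some q) => if D.M q x = none then some (.hR (D.ans x)) else none
  | .hR a, .cell _ _ none => some (.hR a)
  | .hR a, .sep b => if a = b then some .hU else none
  | .hU, .used => some .hU
  | .hU, .fresh => some .hU
  | .hU, .last => some .hEnd
  | _, _ => none

/-- The row machine of the data. -/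
@[reducible] noncomputable def rowMachine (P : List (Fin n) → Prop) : RowMachine P where
  A := Sym n Γ Q
  fintypeA := inferInstance
  first := .first
  last := .last
  head := .hd
  letter := .inp
  letter_inj i j h := by simpa using h
  head_inj i j h := by simpa using h
  first_ne_last := by simp
  letter_ne i := by simp
  head_ne b := by simp
  Q := St Q
  fintypeQ := inferInstance
  start := .start
  accepts q := q = .fin
  trans := (edgeSet_finite D).toFinset
  Qh := Hs
  fintypeQh := inferInstance
  hstart := .h0
  hnext := hnext D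
  haccepts q := q = .hEnd

end Vale.Agent.P193.Machine
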