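import Mathlib
import Vale.Agent.P193.Full.MachineRows

/-! What the runs of the row transducer read and write, and its unambiguity (P193, module 1). -/

namespace Vale.Agent.P193.Machine

open Turing

variable {n : ℕ} {Γ Q : Type} (D : Data n Γ Q)

/-- A single transition is local: either it stays inside a row or it closes it. -/
theorem edge_kind {q q' : St Q} {a : Sym n Γ Q} {b : List (Sym n Γ Q)} (h : Edge D q a b q') :
    q = .start ∧ a = .first ∧ (∃ b', b = .first :: b' ∧ .first ∉ b' ∧ .last ∉ b') ∧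
        (q' = .init ∨ q' = .s0 ∨ q' = .r) ∨
      q ≠ .start ∧ q ≠ .fin ∧ q' ≠ .start ∧
        (q' ≠ .fin ∧ a ≠ .first ∧ a ≠ .last ∧ .first ∉ b ∧ .last ∉ b ∨
          q' = .fin ∧ a = .last ∧ ∃ b', b = b' ++ [.last] ∧ .first ∉ b' ∧ .last ∉ b') := by
  cases h with
  | skip hs => rcases hs with rfl | rfl <;> simp
  | guess hs => rcases hs with rfl | rfl <;> simp
  | write hs => rcases hs with rfl | rfl <;> simp
  | right hs => rcases hs with rfl | rfl <;> simp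
  | initLast => exact Or.inr ⟨by simp, by simp, by simp, Or.inr ⟨rfl, rfl, [], by simp⟩⟩
  | simLast => exact Or.inr ⟨by simp, by simp, by simp, Or.inr ⟨rfl, rfl, [], by simp⟩⟩
  | resLast => exact Or.inr ⟨by simp, by simp, by simp, Or.inr ⟨rfl, rfl, [.fresh], by simp⟩⟩
  | _ => simp [blk, pl, mark0]

/-- What can be read from a state up to the end of the row. -/
def Lang : St Q → List (Sym n Γ Q) → Prop
  | .start, l => ∃ (w : List (Fin n)) (b : Bool), l = .first :: (w.map Sym.inp ++ [.hd b, .last]) ∨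
      ∃ (z : Zone n Γ Q) (u v : ℕ), D.M (Zone.q z) z.x ≠ none ∧ l = .first :: body z b u v
  | .init, l => ∃ (w : List (Fin n)) (b : Bool), l = w.map Sym.inp ++ [.hd b, .last]
  | .initEnd, l => l = [.last]
  | .s0, l => ∃ (z : Zone n Γ Q) (b : Bool) (u v : ℕ), D.M (Zone.q z) z.x ≠ none ∧ l = body z b u (v + 1)
  | .sL, l => ∃ (z : Zone n Γ Q) (b : Bool) (u v : ℕ), D.M (Zone.q z) z.x ≠ none ∧
      (z.L = [] → ∀ q', D.M z.q z.x ≠ some (q', .move .left)) ∧ l = body z b u (v + 1)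
  | .needL q', l => ∃ (z : Zone n Γ Q) (b : Bool) (u v : ℕ), z.L = [] ∧
      D.M (Zone.q z) z.x = some (q', .move .left) ∧ l = body z b u (v + 1)
  | .putR _, l => ∃ (R : List (Option (Fin n) × Γ)) (b : Bool) (u v : ℕ), l = R.map pl ++ .sep b :: tick u (v + 1)
  | .sR, l => ∃ (R : List (Option (Fin n) × Γ)) (b : Bool) (u v : ℕ), l = R.map pl ++ .sep b :: tick u (v + 1)
  | .sU, l => ∃ u v, l = tick u (v + 1)
  | .sV, l => ∃ v, l = tick 0 v
  | .r, l => ∃ (z : Zone n Γ Q) (b : Bool) (u : ℕ), D.M (Zone.q z) z.x ≠ none ∧ l = body z b u 0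
  | .rR, l => ∃ (R : List (Option (Fin n) × Γ)) (b : Bool) (u : ℕ), l = R.map pl ++ .sep b :: tick u 0
  | .rU, l => ∃ u, l = tick u 0
  | .fin, l => l = []

/-- Put a cell in front of a zone. -/
def Zone.push (z : Zone n Γ Q) (p : Option (Fin n) × Γ) : Zone n Γ Q :=
  { z with L := z.L ++ [p] }

theorem body_push (z : Zone n Γ Q) (p) (b u v) :
    body (z.push p) b u v = pl p :: body z b u v := by
  simp [body, zsyms, Zone.push]

theorem lang_cons {q q' : St Q} {a : Sym n Γ Q} {b : List (Sym n Γ Q)} {l : List (Sym n Γ Q)}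
    (h : Edge D q a b q') (hl : Lang D q' l) : Lang D q (a :: l) := by
  cases h with
  | init0 => obtain ⟨w, b, rfl⟩ := hl; exact ⟨w, b, Or.inl rfl⟩
  | inp i => obtain ⟨w, b, rfl⟩ := hl; exact ⟨i :: w, b, rfl⟩
  | hd b => rw [show l = [Sym.last] from hl]; exact ⟨[], b, rfl⟩
  | initLast => rw [show l = [] from hl]; rfl
  | sim0 => obtain ⟨z, b, u, v, hM, rfl⟩ := hl; exact ⟨[], b, Or.inr ⟨z, u, v + 1, hM, rfl⟩⟩
  | res0 => obtain ⟨z, b, u, hM, rfl⟩ := hl; exact ⟨[], b, Or.inr ⟨z, u, 0, hM, rfl⟩⟩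
  | skip hs o x =>
    obtain ⟨z, b, u, v, hM, -, rfl⟩ := hl
    rcases hs with rfl | rfl
    · exact ⟨z.push (o, x), b, u, v, hM, (body_push z (o, x) b u _).symm⟩
    · exact ⟨z.push (o, x), b, u, v, hM, by simp [Zone.push], (body_push z (o, x) b u _).symm⟩
  | guess hs o x q'' =>
    obtain ⟨z, b, u, v, -, hM, rfl⟩ := hl
    rcases hs with rfl | rfl
    · exact ⟨z.push (o, x), b, u, v, by simp [Zone.push, hM], (body_push z (o, x) b u _).symm⟩
    · exact ⟨z.push (o, x), b, u, v, by simp [Zone.push, hM], by simp [Zone.push],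
        (body_push z (o, x) b u _).symm⟩
  | write hs o x qq q'' c hM =>
    obtain ⟨R, b, u, v, rfl⟩ := hl
    rcases hs with rfl | rfl
    · exact ⟨⟨[], o, x, qq, R⟩, b, u, v, by simp [hM], rfl⟩
    · exact ⟨⟨[], o, x, qq, R⟩, b, u, v, by simp [hM], by simp [hM], rfl⟩
  | right hs o x qq q'' hM =>
    obtain ⟨R, b, u, v, rfl⟩ := hl
    rcases hs with rfl | rfl
    · exact ⟨⟨[], o, x, qq, R⟩, b, u, v, by simp [hM], rfl⟩
    · exact ⟨⟨[], o, x, qq, R⟩, b, u, v, by simp [hM], by simp [hM], rfl⟩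
  | leftEnd o x qq q'' hM =>
    obtain ⟨R, b, u, v, rfl⟩ := hl
    exact ⟨⟨[], o, x, qq, R⟩, b, u, v, by simp [hM], rfl⟩
  | left o x qq q'' hM =>
    obtain ⟨R, b, u, v, rfl⟩ := hl
    exact ⟨⟨[], o, x, qq, R⟩, b, u, v, rfl, hM, rfl⟩
  | put o x =>
    obtain ⟨R, b, u, v, rfl⟩ := hl
    exact ⟨(o, x) :: R, b, u, v, rfl⟩
  | putEnd b =>
    obtain ⟨u, v, rfl⟩ := hl
    exact ⟨[], b, u, v, rfl⟩
  | copyR o x =>
    obtain ⟨R, b, u, v, rfl⟩ := hl
    exact ⟨(o, x) :: R, b, u, v, rfl⟩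
  | sepR b =>
    obtain ⟨u, v, rfl⟩ := hl
    exact ⟨[], b, u, v, rfl⟩
  | used =>
    obtain ⟨u, v, rfl⟩ := hl
    exact ⟨u + 1, v, rfl⟩
  | spend =>
    obtain ⟨v, rfl⟩ := hl
    exact ⟨0, v, rfl⟩
  | fresh =>
    obtain ⟨v, rfl⟩ := hl
    exact ⟨v + 1, rfl⟩
  | simLast => rw [show l = [] from hl]; exact ⟨0, rfl⟩
  | resL o x =>
    obtain ⟨z, b, u, hM, rfl⟩ := hl
    exact ⟨z.push (o, x), b, u, hM, (body_push z (o, x) b u _).symm⟩
  | resMark o x qq hM =>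
    obtain ⟨R, b, u, rfl⟩ := hl
    exact ⟨⟨[], o, x, qq, R⟩, b, u, hM, rfl⟩
  | resR o x =>
    obtain ⟨R, b, u, rfl⟩ := hl
    exact ⟨(o, x) :: R, b, u, rfl⟩
  | resSep b =>
    obtain ⟨u, rfl⟩ := hl
    exact ⟨[], b, u, rfl⟩
  | refill =>
    obtain ⟨u, rfl⟩ := hl
    exact ⟨u + 1, rfl⟩
  | resLast => rw [show l = [] from hl]; exact ⟨0, rfl⟩

theorem sep_mem_body (z : Zone n Γ Q) (b u v) : Sym.sep b ∈ body z b u v := by simp [body]

theorem fresh_mem_body (z : Zone n Γ Q) (b u v) : Sym.fresh ∈ body z b u (v + 1) := by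
  simp [body, tick]

theorem fresh_notMem_body (z : Zone n Γ Q) (b u) : Sym.fresh ∉ body z b u 0 := by
  simp [body, tick, zsyms, pl]

theorem body_head {z z' : Zone n Γ Q} {b b' u u' v v'} (h0 : z.L = [])
    (h : body z b u v = body z' b' u' v') : z'.L = [] ∧ z'.x = z.x ∧ z'.q = z.q := by
  rcases List.eq_nil_or_concat z'.L with h' | ⟨L, p, h'⟩
  · simp [body, zsyms, h0, h'] at h
    exact ⟨h', h.1.2.1.symm, h.1.2.2.symm⟩
  · simp [body, zsyms, h0, h', pl, List.concat_eq_append] at h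

theorem body_inv {z z' : Zone n Γ Q} {b b' u u' v v'} (hL : z'.L = [])
    (h : body z b u v = body z' b' u' v') (hl : z.L = [] → D.M z.q z.x ≠ D.M z'.q z'.x) :
    False := by
  obtain ⟨h1, h2, h3⟩ := body_head hL h.symm
  exact hl h1 (by rw [h2, h3])

/-- The rest of the row determines the next transition. -/
theorem next_unique {q q₁ q₂ : St Q} {a : Sym n Γ Q} {b₁ b₂ : List (Sym n Γ Q)}
    {l : List (Sym n Γ Q)} (h₁ : Edge D q a b₁ q₁) (h₂ : Edge D q a b₂ q₂)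
    (l₁ : Lang D q₁ l) (l₂ : Lang D q₂ l) : q₁ = q₂ := by
  have hI : ∀ {l : List (Sym n Γ Q)}, Lang D .init l → (∀ b, Sym.sep b ∉ l) := by
    rintro l ⟨w, b, rfl⟩ b'; simp
  have hS : ∀ {l : List (Sym n Γ Q)}, Lang D .s0 l → (∃ b, Sym.sep b ∈ l) ∧ Sym.fresh ∈ l := by
    rintro l ⟨z, b, u, v, -, rfl⟩; exact ⟨⟨b, sep_mem_body ..⟩, fresh_mem_body ..⟩
  have hR : ∀ {l : List (Sym n Γ Q)}, Lang D .r l → (∃ b, Sym.sep b ∈ l) ∧ Sym.fresh ∉ l := by
    rintro l ⟨z, b, u, -, rfl⟩; exact ⟨⟨b, sep_mem_body ..⟩, fresh_notMem_body z b u⟩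
  have hN : ∀ {l : List (Sym n Γ Q)} {p}, Lang D .sL l → Lang D (.needL p) l → False := by
    rintro l p ⟨z, b, u, v, -, hz, rfl⟩ ⟨z', b', u', v', hL, hM, e⟩
    exact body_inv D hL e fun h0 => hM ▸ hz h0 p
  have hP : ∀ {l : List (Sym n Γ Q)} {p p'}, Lang D (.needL p) l → Lang D (.needL p') l →
      p = p' := by
    rintro l p p' ⟨z, b, u, v, hL, hM, rfl⟩ ⟨z', b', u', v', hL', hM', e⟩
    obtain ⟨-, h2, h3⟩ := body_head hL e
    rw [h2, h3, hM] at hM'
    simpa using hM'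
  cases h₁ <;> cases h₂ <;> first
    | rfl
    | exact absurd (hS l₁).1 (by simpa using hI l₂)
    | exact absurd (hS l₂).1 (by simpa using hI l₁)
    | exact absurd (hR l₁).1 (by simpa using hI l₂)
    | exact absurd (hR l₂).1 (by simpa using hI l₁)
    | exact absurd (hS l₁).2 (hR l₂).2
    | exact absurd (hS l₂).2 (hR l₁).2
    | exact (hN l₁ l₂).elim
    | exact (hN l₂ l₁).elim
    | exact congrArg St.needL (hP l₁ l₂)
    | simp_all

end Vale.Agent.P193.Machine
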