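import Mathlib
import Vale.Agent.P193.Full.MachineLang

/-! The steps of the row machine on rows that hold a zone, and its lawfulness except termination
(P193, module 1). -/

namespace Vale.Agent.P193.Machine

open Turing

variable {n : ℕ} {Γ Q : Type} [Fintype Γ] [Fintype Q] (D : Data n Γ Q) (P : List (Fin n) → Prop)

theorem mem_trans {q q' : St Q} {a : Sym n Γ Q} {b : List (Sym n Γ Q)} :
    (q, a, b, q') ∈ (rowMachine D P).trans ↔ Edge D q a b q' :=
  Set.Finite.mem_toFinset _

theorem run_lang {q l} (h : (rowMachine D P).Run q l) : Lang D q ((rowMachine D P).inRow l) := by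
  induction h with
  | @done q hq => cases hq; rfl
  | @cons q a b q' rest hmem _ ih =>
    exact lang_cons D ((mem_trans D P).1 hmem) ih

theorem run_unique {q l} (h : (rowMachine D P).Run q l) : ∀ {l'}, (rowMachine D P).Run q l' →
    (rowMachine D P).inRow l = (rowMachine D P).inRow l' → l = l' := by
  induction h with
  | done _ =>
    intro l' _ e
    cases l' with
    | nil => rfl
    | cons => simp [RowMachine.inRow] at e
  | @cons q a b q' rest hmem hrun ih =>
    intro l' h' e
    cases h' with
    | done => simp [RowMachine.inRow] at e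
    | @cons _ a' b' q'' rest' hmem' hrun' =>
      simp only [RowMachine.inRow, List.map_cons, List.cons.injEq] at e
      obtain ⟨rfl, e'⟩ := e
      have h1 := (mem_trans D P).1 hmem
      have h2 := (mem_trans D P).1 hmem'
      have l2 := run_lang D P hrun'
      rw [show (rowMachine D P).inRow rest' = (rowMachine D P).inRow rest from e'.symm] at l2
      obtain rfl := next_unique D h1 h2 (run_lang D P hrun) l2
      obtain rfl := Edge.det D h1 h2
      rw [ih hrun' e']

/-- No end markers inside, one closing marker. -/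
def Closed (l : List (Sym n Γ Q)) : Prop :=
  ∃ mid, l = mid ++ [Sym.last] ∧ Sym.first ∉ mid ∧ Sym.last ∉ mid

theorem run_closed {q l} (h : (rowMachine D P).Run q l) :
    q ≠ St.start → (q = St.fin ∧ l = [] ∨
      Closed ((rowMachine D P).inRow l) ∧ Closed ((rowMachine D P).outRow l)) := by
  induction h with
  | @done q hq => intro _; exact Or.inl ⟨hq, rfl⟩
  | @cons q a b q' rest hmem hrun ih =>
    intro hq
    refine Or.inr ?_
    rcases edge_kind D ((mem_trans D P).1 hmem) with ⟨h0, -⟩ |
      ⟨-, -, hq', ⟨hf, ha, ha', hb, hb'⟩ | ⟨hf, ha, b', hb, hb1, hb2⟩⟩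
    · exact absurd h0 hq
    · rcases ih hq' with ⟨e, -⟩ | ⟨⟨m, hm, m1, m2⟩, m', hm', m1', m2'⟩
      · exact absurd e hf
      · exact ⟨⟨a :: m, by rw [RowMachine.inRow, List.map_cons, ← RowMachine.inRow, hm]; rfl,
            by simp [Ne.symm ha, m1], by simp [Ne.symm ha', m2]⟩,
          b ++ m', by rw [RowMachine.outRow, List.map_cons, List.flatten_cons,
            ← RowMachine.outRow, hm']; simp, by simp [hb, m1'], by simp [hb', m2']⟩
    · subst hf ha hb
      obtain rfl : rest = [] := List.map_eq_nil_iff.1 (run_lang D P hrun)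
      exact ⟨⟨[], rfl, by simp, by simp⟩, b', by simp [RowMachine.outRow], hb1, hb2⟩

/-- A row holding a zone. -/
def row (z : Zone n Γ Q) (b : Bool) (u v : ℕ) : List (Sym n Γ Q) := Sym.first :: body z b u v

theorem step_shape {r r'} (h : (rowMachine D P).Step r r') :
    (∃ w b, r = (rowMachine D P).initRow w b) ∨
      ∃ z b u v, D.M (Zone.q z) z.x ≠ none ∧ r = row z b u v := by
  obtain ⟨l, hl, rfl, -⟩ := h
  obtain ⟨w, b, h | ⟨z, u, v, hM, h⟩⟩ := run_lang D P hl
  · exact Or.inl ⟨w, b, h⟩
  · exact Or.inr ⟨z, b, u, v, hM, h⟩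

theorem step_ok {r r'} (h : (rowMachine D P).Step r r') :
    (rowMachine D P).RowOK r ∧ (rowMachine D P).RowOK r' := by
  obtain ⟨l, hl, rfl, rfl⟩ := h
  cases hl with
  | done hq => exact absurd (show St.start = St.fin from hq) (by simp)
  | @cons _ a b q' rest hmem hrun =>
    rcases edge_kind D ((mem_trans D P).1 hmem) with
      ⟨-, ha, ⟨b', hb, hb1, hb2⟩, hq'⟩ | ⟨hne, -⟩
    · subst ha hb
      rcases run_closed D P hrun (by rcases hq' with h | h | h <;> simp [h]) with
        ⟨e, -⟩ | ⟨⟨m, hm, m1, m2⟩, m', hm', m1', m2'⟩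
      · rcases hq' with h | h | h <;> simp [h] at e
      · refine ⟨⟨m, ?_, m1, m2⟩, ⟨b' ++ m', ?_, ?_, ?_⟩⟩
        · rw [RowMachine.inRow, List.map_cons, ← RowMachine.inRow, hm]
        · rw [RowMachine.outRow, List.map_cons, List.flatten_cons, ← RowMachine.outRow, hm']
          simp
        · simp [hb1, m1', rowMachine]
        · simp [hb2, m2', rowMachine]
    · exact absurd rfl hne

/-- Some run from `q` reads `i` and writes `o`. -/
def Tr (q : St Q) (i o : List (Sym n Γ Q)) : Prop :=
  ∃ l, (rowMachine D P).Run q l ∧ (rowMachine D P).inRow l = i ∧ (rowMachine D P).outRow l = o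

variable {D P}

theorem tr_fin : Tr D P .fin [] [] := ⟨[], .done rfl, rfl, rfl⟩

theorem Tr.cons {q q' : St Q} {a : Sym n Γ Q} {b i o : List (Sym n Γ Q)}
    (he : Edge D q a b q') (h : Tr D P q' i o) : Tr D P q (a :: i) (b ++ o) := by
  obtain ⟨l, hl, rfl, rfl⟩ := h
  exact ⟨(q, a, b, q') :: l, .cons ((mem_trans D P).2 he) hl, rfl,
    by simp only [RowMachine.outRow, List.map_cons]; exact List.flatten_cons⟩

theorem tr_sV : ∀ v, Tr D P .sV (tick 0 v) (tick 0 v)
  | 0 => by simpa [tick] using Tr.cons .simLast tr_fin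
  | v + 1 => by simpa [tick, List.replicate_succ] using Tr.cons .fresh (tr_sV v)

theorem tr_sU : ∀ u v, Tr D P .sU (tick u (v + 1)) (tick (u + 1) v)
  | 0, v => by simpa [tick, List.replicate_succ] using Tr.cons .spend (tr_sV v)
  | u + 1, v => by simpa [tick, List.replicate_succ] using Tr.cons .used (tr_sU u v)

theorem tr_rU : ∀ u, Tr D P .rU (tick u 0) (tick 0 (u + 1))
  | 0 => by simpa [tick] using Tr.cons .resLast tr_fin
  | u + 1 => by simpa [tick, List.replicate_succ] using Tr.cons .refill (tr_rU u)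

theorem tr_sR (b u v) : ∀ R : List (Option (Fin n) × Γ),
    Tr D P .sR (R.map pl ++ .sep b :: tick u (v + 1)) (R.map pl ++ .sep b :: tick (u + 1) v)
  | [] => Tr.cons (D := D) (b := [Sym.sep b]) (.sepR b) (tr_sU u v)
  | (o, x) :: R => by simpa [pl] using Tr.cons (.copyR o x) (tr_sR b u v R)

omit [Fintype Γ] [Fintype Q] in
theorem cellsOf_cons (o : Option (Fin n)) (x : Γ) (R : List (Option (Fin n) × Γ)) :
    (cellsOf D (((o, x) :: R).filterMap Prod.fst)).map pl =
      blk (Q := Q) D o ++ (cellsOf D (R.filterMap Prod.fst)).map pl := by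
  cases o <;> simp [blk, cellsOf]

theorem tr_rR (b u) : ∀ R : List (Option (Fin n) × Γ),
    Tr D P .rR (R.map pl ++ .sep b :: tick u 0)
      ((cellsOf D (R.filterMap Prod.fst)).map pl ++ .sep b :: tick 0 (u + 1))
  | [] => by simpa [cellsOf] using Tr.cons (.resSep b) (tr_rU u)
  | (o, x) :: R => by
    rw [cellsOf_cons, List.append_assoc]
    exact Tr.cons (.resR o x) (tr_rR b u R)

theorem tr_rL {X Y} (h : Tr D P .r X Y) : ∀ L : List (Option (Fin n) × Γ),
    Tr D P .r (L.map pl ++ X) ((cellsOf D (L.filterMap Prod.fst)).map pl ++ Y)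
  | [] => by simpa [cellsOf] using h
  | (o, x) :: L => by
    rw [cellsOf_cons, List.append_assoc]
    exact Tr.cons (.resL o x) (tr_rL h L)

theorem tr_pre {X Y} (h : ∀ s, s = St.s0 ∨ s = St.sL → Tr D P s X Y) :
    ∀ (L : List (Option (Fin n) × Γ)) (s : St Q), s = St.s0 ∨ s = St.sL →
      Tr D P s (L.map pl ++ X) (L.map pl ++ Y)
  | [], s, hs => by simpa using h s hs
  | (o, x) :: L, s, hs => by
    simpa [pl] using Tr.cons (.skip hs o x) (tr_pre h L .sL (Or.inr rfl))

theorem step_of_init {X Y} (h : Tr D P .init X Y) :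
    (rowMachine D P).Step (.first :: X) (.first :: mark0 D :: Y) :=
  Tr.cons .init0 h

theorem tr_init (b : Bool) : ∀ w : List (Fin n),
    Tr D P .init (w.map Sym.inp ++ [.hd b, .last])
      ((cellsOf D w).map pl ++ .sep b :: tick 0 1)
  | [] => by simpa [cellsOf, tick] using Tr.cons (.hd b) (Tr.cons .initLast tr_fin)
  | i :: w => by simpa [pl, blk, cellsOf] using Tr.cons (.inp i) (tr_init b w)

theorem step_init (w : List (Fin n)) (b : Bool) :
    (rowMachine D P).Step ((rowMachine D P).initRow w b) (row (z0 D w) b 0 1) := by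
  have h := step_of_init (tr_init (P := P) (D := D) b w)
  simpa [RowMachine.initRow, rowMachine, row, body, zsyms, z0, mark0] using h

theorem step_restart (z : Zone n Γ Q) (b u) (hM : D.M z.q z.x ≠ none) :
    (rowMachine D P).Step (row z b u 0) (row (z0 D (zin z)) b 0 (u + 1)) := by
  have h := Tr.cons .res0 (tr_rL (Tr.cons (.resMark z.o z.x z.q hM)
    (tr_rR (P := P) b u z.R)) z.L.reverse)
  have he : cellsOf D (zin z) = cellsOf D (z.L.reverse.filterMap Prod.fst) ++
      cellsOf D z.o.toList ++ cellsOf D (z.R.filterMap Prod.fst) := by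
    unfold zin cellsOf
    rw [List.filterMap_append, List.flatMap_append]
    cases hz : z.o <;> simp
  simpa [Tr, RowMachine.Step, rowMachine, row, body, zsyms, z0, mark0, blk, he, pl] using h

/-- One machine step on a zone. -/
def Zone.step (D : Data n Γ Q) (z : Zone n Γ Q) : Option (Zone n Γ Q) :=
  match D.M z.q z.x with
  | none => none
  | some (q', .write a) => some { z with q := q', x := a }
  | some (q', .move .right) =>
    match z.R with
    | [] => some ⟨(z.o, z.x) :: z.L, none, D.blank, q', []⟩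
    | (o, x) :: R => some ⟨(z.o, z.x) :: z.L, o, x, q', R⟩
  | some (q', .move .left) =>
    match z.L with
    | [] => some ⟨[], none, D.blank, q', (z.o, z.x) :: z.R⟩
    | (o, x) :: L => some ⟨L, o, x, q', (z.o, z.x) :: z.R⟩

omit [Fintype Γ] [Fintype Q] in
theorem zin_step {z z' : Zone n Γ Q} (h : z.step D = some z') : zin z' = zin z := by
  obtain ⟨L, o, x, q, R⟩ := z
  simp only [Zone.step] at h
  split at h
  · simp at h
  · cases h; cases o <;> simp [zin]
  · rcases R with - | ⟨⟨o', x'⟩, R⟩ <;> cases h <;> cases o <;>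
      simp [zin, List.filterMap_cons, List.filterMap_append]
  · rcases L with - | ⟨⟨o', x'⟩, L⟩ <;> cases h <;> cases o <;>
      simp [zin, List.filterMap_cons, List.filterMap_append]

theorem step_sim {z z' : Zone n Γ Q} (b u v) (hz : z.step D = some z') :
    (rowMachine D P).Step (row z b u (v + 1)) (row z' b (u + 1) v) := by
  obtain ⟨L, o, x, q, R⟩ := z
  suffices h : Tr D P .s0 (body ⟨L, o, x, q, R⟩ b u (v + 1)) (body z' b (u + 1) v) from
    Tr.cons .sim0 h
  simp only [Zone.step] at hz
  split at hz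
  · simp at hz
  next q' a hM =>
    cases hz
    simpa [body, zsyms] using tr_pre (fun s hs => Tr.cons (.write hs o x q q' a hM)
      (tr_sR b u v R)) L.reverse .s0 (Or.inl rfl)
  next q' hM =>
    rcases R with - | ⟨⟨o', x'⟩, R⟩ <;> cases hz
    · simpa [body, zsyms, pl] using tr_pre (fun s hs => Tr.cons (.right hs o x q q' hM)
        (Tr.cons (.putEnd b q') (tr_sU u v))) L.reverse .s0 (Or.inl rfl)
    · simpa [body, zsyms, pl] using tr_pre (fun s hs => Tr.cons (.right hs o x q q' hM)
        (Tr.cons (.put o' x' q') (tr_sR b u v R))) L.reverse .s0 (Or.inl rfl)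
  next q' hM =>
    rcases L with - | ⟨⟨o', x'⟩, L⟩ <;> cases hz
    · simpa [body, zsyms, pl] using Tr.cons (.leftEnd o x q q' hM) (tr_sR b u v R)
    · simpa [body, zsyms, pl] using tr_pre (fun s hs => Tr.cons (.guess hs o' x' q')
        (Tr.cons (.left o x q q' hM) (tr_sR b u v R))) L.reverse .s0 (Or.inl rfl)

theorem step_functional {r r₁ r₂} (h₁ : (rowMachine D P).Step r r₁)
    (h₂ : (rowMachine D P).Step r r₂) : r₁ = r₂ := by
  obtain ⟨l, hl, hi, rfl⟩ := h₁
  obtain ⟨l', hl', hi', rfl⟩ := h₂
  rw [run_unique D P hl hl' (hi.trans hi'.symm)]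

/-- Evaluation of the halting test from a state. -/
noncomputable def hfold (D : Data n Γ Q) (q : Option Hs) (l : List (Sym n Γ Q)) : Option Hs :=
  l.foldl (fun o a => o.bind fun s => hnext D s a) q

theorem halted_iff {r} : (rowMachine D P).Halted r ↔ hfold D (some .h0) r = some .hEnd :=
  ⟨fun ⟨_, h, hq⟩ => by subst hq; exact h, fun h => ⟨_, h, rfl⟩⟩

omit [Fintype Γ] [Fintype Q] in
theorem hfold_none : ∀ l : List (Sym n Γ Q), hfold D none l = none
  | [] => rfl
  | _ :: l => hfold_none l

omit [Fintype Γ] [Fintype Q] in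
theorem hnext_props {q q' : Hs} {a : Sym n Γ Q} (hn : hnext D q a = some q') (hq : q ≠ .h0) :
    q' ≠ .h0 ∧ a ≠ .first ∧ (a = .last ↔ q' = .hEnd) := by
  cases q with
  | h0 => exact absurd rfl hq
  | _ =>
    cases a with
    | cell o x qq => cases qq <;> simp [hnext] at hn <;> aesop
    | _ => simp [hnext] at hn <;> aesop

theorem hfold_props : ∀ (l : List (Sym n Γ Q)) (q : Hs),
    hfold D (some q) l = some .hEnd → q ≠ .h0 →
      (q = .hEnd ∧ l = [] ∨ Closed l) ∧
        ∀ o x qq, Sym.cell o x (some qq) ∈ l → D.M qq x = none := by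
  intro l
  induction l with
  | nil => intro q h _; simp [hfold] at h; simp [h]
  | cons a l ih =>
    intro q h hq
    change hfold D (hnext D q a) l = some .hEnd at h
    rcases hn : hnext D q a with - | q'
    · simp [hn, hfold_none] at h
    · rw [hn] at h
      have hmark : ∀ o x qq, a = Sym.cell o x (some qq) → D.M qq x = none := by
        rintro o x qq rfl
        cases q <;> simp [hnext] at hn
        exact hn.1
      have hq' := hnext_props hn hq
      obtain ⟨hc, hm⟩ := ih q' h hq'.1
      refine ⟨Or.inr ?_, fun o x qq hmem => ?_⟩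
      · rcases hc with ⟨rfl, rfl⟩ | ⟨m, rfl, m1, m2⟩
        · exact ⟨[], by simp [hq'.2.2.2 rfl], by simp, by simp⟩
        · refine ⟨a :: m, rfl, by simp [Ne.symm hq'.2.1, m1], ?_⟩
          have : a ≠ .last := fun e => by
            have := hq'.2.2.1 e
            subst this
            rcases hm' : m ++ [Sym.last] with - | ⟨c, t⟩
            · simp at hm'
            · rw [hm'] at h
              change hfold D (hnext D .hEnd c) t = some .hEnd at h
              simp [hnext, hfold_none] at h
          simp [Ne.symm this, m2]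
      · rcases List.mem_cons.1 hmem with e | e
        · exact hmark o x qq e.symm
        · exact hm o x qq e

theorem halted_ok {r} (h : (rowMachine D P).Halted r) : (rowMachine D P).RowOK r := by
  rw [halted_iff] at h
  rcases r with - | ⟨a, l⟩
  · simp [hfold] at h
  · change hfold D (hnext D .h0 a) l = some .hEnd at h
    cases a <;> simp [hnext, hfold_none] at h
    obtain ⟨⟨e, -⟩ | ⟨m, rfl, m1, m2⟩, -⟩ := hfold_props l .hL h (by simp)
    · simp at e
    · exact ⟨m, rfl, m1, m2⟩

theorem halted_stops {r r'} (h : (rowMachine D P).Halted r) :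
    ¬ (rowMachine D P).Step r r' := by
  intro hs
  rw [halted_iff] at h
  rcases step_shape D P hs with ⟨w, b, rfl⟩ | ⟨z, b, u, v, hM, rfl⟩
  · cases w <;> simp [RowMachine.initRow, rowMachine, hfold, hnext] at h
  · change hfold D (some .hL) (body z b u v) = some .hEnd at h
    exact hM ((hfold_props _ .hL h (by simp)).2 z.o z.x z.q (by simp [body, zsyms]))

omit [Fintype Γ] [Fintype Q] in
theorem hfold_plain (q : Hs) (hq : q = .hL ∨ ∃ a, q = .hR a) :
    ∀ (R : List (Option (Fin n) × Γ)) (l : List (Sym n Γ Q)),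
      hfold D (some q) (R.map pl ++ l) = hfold D (some q) l
  | [], l => rfl
  | (o, x) :: R, l => by
    change hfold D (hnext D q (pl (o, x))) (R.map pl ++ l) = _
    rw [← hfold_plain q hq R l]
    rcases hq with rfl | ⟨a, rfl⟩ <;> rfl

omit [Fintype Γ] [Fintype Q] in
theorem hfold_tick : ∀ u v, hfold (n := n) (Γ := Γ) D (some .hU) (tick u v) = some .hEnd
  | 0, 0 => rfl
  | 0, v + 1 => by
    simpa [tick, hfold, List.replicate_succ, hnext] using hfold_tick 0 v
  | u + 1, v => by
    simpa [tick, hfold, List.replicate_succ, hnext] using hfold_tick u v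

theorem halted_row (z : Zone n Γ Q) (b u v) :
    (rowMachine D P).Halted (row z b u v) ↔ D.M z.q z.x = none ∧ D.ans z.x = b := by
  classical
  rw [halted_iff]
  change hfold D (some .hL) (body z b u v) = some .hEnd ↔ _
  rw [body, zsyms, List.append_assoc, hfold_plain .hL (Or.inl rfl)]
  change hfold D (hnext D .hL (Sym.cell z.o z.x (some z.q))) _ = some .hEnd ↔ _
  by_cases hM : D.M z.q z.x = none
  · simp only [hnext, hM, if_true, true_and]
    show hfold D _ (z.R.map pl ++ _) = _ ↔ _
    rw [hfold_plain _ (Or.inr ⟨_, rfl⟩)]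
    change hfold D (hnext D (.hR (D.ans z.x)) (Sym.sep b)) _ = some .hEnd ↔ _
    by_cases hb : D.ans z.x = b <;> simp [hnext, hb, hfold_none, hfold_tick]
  · simp [hnext, hM, hfold_none]

end Vale.Agent.P193.Machine
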