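import Mathlib
import Vale.Agent.P193.Full.MachineDecider
import Vale.Agent.P193.Full.MachineSteps

/-! Every computable predicate on words has a lawful row machine (P193, module 1). -/

namespace Vale.Agent.P193.Machine

open Turing Relation

variable {n : ℕ} {Γ Q : Type}

/-- The configuration held by a zone. -/
def sem [Inhabited Γ] (z : Zone n Γ Q) : TM0.Cfg Γ Q :=
  ⟨z.q, ⟨z.x, ListBlank.mk (z.L.map Prod.snd), ListBlank.mk (z.R.map Prod.snd)⟩⟩

/-- The simulated machine. -/
def tmStep [Inhabited Γ] (D : Data n Γ Q) : TM0.Cfg Γ Q → Option (TM0.Cfg Γ Q) :=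
  @TM0.step Γ Q ⟨D.q0⟩ _ D.M

theorem sem_step [Inhabited Γ] (D : Data n Γ Q) (hb : D.blank = default) (z : Zone n Γ Q) :
    tmStep D (sem z) = (z.step D).map sem := by
  obtain ⟨L, o, x, q, R⟩ := z
  simp only [tmStep, TM0.step, sem, Zone.step]
  rcases hM : D.M q x with - | ⟨q', d | a⟩
  · rfl
  · cases d
    · rcases L with - | ⟨⟨o', x'⟩, L⟩
      · simp [sem, Tape.move, ListBlank.head_mk, ListBlank.tail_mk, ListBlank.cons_mk, hb]
      · simp [sem, Tape.move, ListBlank.head_mk, ListBlank.tail_mk, ListBlank.cons_mk]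
    · rcases R with - | ⟨⟨o', x'⟩, R⟩
      · simp [sem, Tape.move, ListBlank.head_mk, ListBlank.tail_mk, ListBlank.cons_mk, hb]
      · simp [sem, Tape.move, ListBlank.head_mk, ListBlank.tail_mk, ListBlank.cons_mk]
  · simp [sem, Tape.write]

theorem zin_z0 (D : Data n Γ Q) : ∀ w, zin (z0 D w) = w := by
  intro w
  induction w with
  | nil => rfl
  | cons i w ih =>
    simp only [zin, z0, cellsOf, List.reverse_nil, List.nil_append,
      List.filterMap_cons] at ih ⊢
    simp [List.filterMap_map, ih]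

theorem mark_unique (z : Zone n Γ Q) (b u v) {o x q}
    (h : Sym.cell o x (some q) ∈ body z b u v) : q = z.q ∧ x = z.x := by
  simp [body, zsyms, tick, pl] at h
  exact ⟨h.2.2, h.2.1⟩

theorem acc_of_terminal {α : Type*} {R : α → α → Prop}
    (hfun : ∀ a b c, R a b → R a c → b = c) {a t : α} (h : ReflTransGen R a t)
    (ht : ∀ b, ¬ R t b) : Acc (fun y x => R x y) a := by
  induction h using ReflTransGen.head_induction_on with
  | refl => exact ⟨_, fun b hb => absurd hb (ht b)⟩
  | head hab _ ih => exact ⟨_, fun b hb => hfun _ _ _ hab hb ▸ ih⟩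

theorem terminal_unique {α : Type*} {R : α → α → Prop}
    (hfun : ∀ a b c, R a b → R a c → b = c) {a b c : α} (hb : ReflTransGen R a b)
    (hc : ReflTransGen R a c) (tb : ∀ d, ¬ R b d) (tc : ∀ d, ¬ R c d) : b = c := by
  rcases ReflTransGen.total_of_right_unique hfun hb hc with h | h
  · exact (ReflTransGen.cases_head h).resolve_right fun ⟨d, hd, _⟩ => tb d hd
  · exact ((ReflTransGen.cases_head h).resolve_right fun ⟨d, hd, _⟩ => tc d hd).symm

section
variable [Fintype Γ] [Fintype Q] [Inhabited Γ] (D : Data n Γ Q) (P : List (Fin n) → Prop)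

/-- A reachable row. -/
abbrev Reach := ReflTransGen (rowMachine D P).Step

omit [Inhabited Γ] in
theorem no_step_halting {z : Zone n Γ Q} {b u v r'} (hM : D.M z.q z.x = none) :
    ¬ (rowMachine D P).Step (row z b u v) r' := by
  intro hs
  rcases step_shape D P hs with ⟨w, b', h⟩ | ⟨z', b', u', v', hM', h⟩
  · have : Sym.sep b ∈ (rowMachine D P).initRow w b' := h ▸ by simp [row, body]
    simp [RowMachine.initRow, rowMachine] at this
  · have : Sym.cell z'.o z'.x (some z'.q) ∈ body z b u v := by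
      rw [(List.cons.inj h).2]; simp [body, zsyms]
    obtain ⟨e1, e2⟩ := mark_unique z b u v this
    exact hM' (e1 ▸ e2 ▸ hM)

variable (hb : D.blank = default)
include hb

theorem sim_run (b : Bool) : ∀ (v : ℕ) (z : Zone n Γ Q) (u : ℕ), ∃ z' u' v',
    zin z' = zin z ∧ ReflTransGen (fun c d => d ∈ tmStep D c) (sem z) (sem z') ∧
      Reach D P (row z b u v) (row z' b u' v') ∧
      (D.M z'.q z'.x = none ∨ D.M z'.q z'.x ≠ none ∧ v' = 0 ∧ u' = u + v) := by
  intro v
  induction v with
  | zero =>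
    intro z u
    refine ⟨z, u, 0, rfl, .refl, .refl, ?_⟩
    by_cases h : D.M z.q z.x = none
    · exact Or.inl h
    · exact Or.inr ⟨h, rfl, rfl⟩
  | succ v ih =>
    intro z u
    rcases hz : z.step D with - | z₁
    · refine ⟨z, u, v + 1, rfl, .refl, .refl, Or.inl ?_⟩
      obtain ⟨L, o, x, q, R⟩ := z
      simp only [Zone.step] at hz
      split at hz
      · assumption
      · simp at hz
      · cases R <;> simp at hz
      · cases L <;> simp at hz
    · obtain ⟨z', u', v', h1, h2, h3, h4⟩ := ih z₁ (u + 1)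
      refine ⟨z', u', v', h1.trans (zin_step hz), .head ?_ h2,
        .head (step_sim b u v hz) h3, ?_⟩
      · simp [sem_step D hb, hz]
      · rcases h4 with h4 | ⟨a, c, d⟩
        · exact Or.inl h4
        · exact Or.inr ⟨a, c, by omega⟩

omit hb [Fintype Γ] [Fintype Q] in
theorem tm_halt_iff (z : Zone n Γ Q) : tmStep D (sem z) = none ↔ D.M z.q z.x = none := by
  simp [tmStep, TM0.step, sem]

theorem halt_in_time {z : Zone n Γ Q} {c} (b : Bool)
    (h : ReflTransGen (fun c d => d ∈ tmStep D c) (sem z) c) (_hc : tmStep D c = none) :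
    ∃ k, ∀ v, k ≤ v → ∀ u, ∃ z' u' v', sem z' = c ∧ Reach D P (row z b u v) (row z' b u' v') := by
  obtain ⟨s, hs⟩ : ∃ s, sem z = s := ⟨_, rfl⟩
  rw [hs] at h
  induction h using ReflTransGen.head_induction_on generalizing z with
  | refl => exact ⟨0, fun v _ u => ⟨z, u, v, hs, .refl⟩⟩
  | @head s s' hstep _ ih =>
    subst hs
    rw [sem_step D hb, Option.mem_def, Option.map_eq_some_iff] at hstep
    obtain ⟨z₁, hz, rfl⟩ := hstep
    obtain ⟨k, hk⟩ := ih rfl
    refine ⟨k + 1, fun v hv u => ?_⟩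
    obtain ⟨v, rfl⟩ : ∃ v', v = v' + 1 := ⟨v - 1, by omega⟩
    obtain ⟨z', u', v', e, hr⟩ := hk v (by omega) (u + 1)
    exact ⟨z', u', v', e, .head (step_sim b u v hz) hr⟩

variable (hD : ∀ w, ∃ c, ReflTransGen (fun c d => d ∈ tmStep D c) (sem (z0 D w)) c ∧
  tmStep D c = none ∧ (D.ans c.Tape.head = true ↔ P w))
include hD

theorem run_to_answer (w : List (Fin n)) (b : Bool) (m : ℕ) : ∃ z u v,
    Reach D P (row (z0 D w) b 0 m) (row z b u v) ∧ D.M z.q z.x = none ∧
      (D.ans z.x = true ↔ P w) := by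
  obtain ⟨c, hc, hhalt, hans⟩ := hD w
  obtain ⟨k, hk⟩ := halt_in_time D P hb b hc hhalt
  have hfin : ∀ z : Zone n Γ Q, sem z = c → D.M z.q z.x = none ∧ (D.ans z.x = true ↔ P w) := by
    rintro z rfl
    exact ⟨(tm_halt_iff D z).1 hhalt, hans⟩
  suffices H : ∀ d m, k ≤ m + d → ∃ z u v, Reach D P (row (z0 D w) b 0 m) (row z b u v) ∧
      D.M z.q z.x = none ∧ (D.ans z.x = true ↔ P w) from H k m (by omega)
  intro d
  induction d with
  | zero =>
    intro m hm
    obtain ⟨z', u', v', e, hr⟩ := hk m (by omega) 0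
    exact ⟨z', u', v', hr, hfin z' e⟩
  | succ d ih =>
    intro m hm
    obtain ⟨z', u', v', hin, hreach, hr, h | ⟨h, rfl, rfl⟩⟩ := sim_run D P hb b m (z0 D w) 0
    · refine ⟨z', u', v', hr, hfin z' (terminal_unique ?_ hreach hc ?_ ?_)⟩
      · intro a x y hx hy; exact Option.mem_unique hx hy
      · intro x hx; simp [(tm_halt_iff D z').2 h] at hx
      · intro x hx; simp [hhalt] at hx
    · obtain ⟨z'', u'', v'', hr', hh⟩ := ih (m + 1) (by omega)
      have hs := step_restart (P := P) (D := D) z' b (0 + m) h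
      rw [hin, zin_z0, Nat.zero_add] at hs
      rw [Nat.zero_add] at hr
      exact ⟨z'', u'', v'', hr.trans (.head hs hr'), hh⟩

theorem row_terminates (z : Zone n Γ Q) (b : Bool) (u v : ℕ) : ∃ z' u' v',
    Reach D P (row z b u v) (row z' b u' v') ∧ D.M z'.q z'.x = none := by
  obtain ⟨z', u', v', -, -, hr, h | ⟨h, rfl, -⟩⟩ := sim_run D P hb b v z u
  · exact ⟨z', u', v', hr, h⟩
  · obtain ⟨z'', u'', v'', hr', hh, -⟩ := run_to_answer D P hb hD (zin z') b (u' + 1)
    exact ⟨z'', u'', v'', hr.trans (.head (step_restart z' b u' h) hr'), hh⟩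

theorem lawful : (rowMachine D P).Lawful where
  unambiguous _ _ h h' e := run_unique D P h h' e
  step_ok _ _ h := step_ok D P h
  halted_ok _ h := halted_ok h
  halted_stops _ _ h := halted_stops h
  wf := by
    refine ⟨fun r => ?_⟩
    refine ⟨_, fun r' hr' => ?_⟩
    refine Acc.inv (r := fun y x => (rowMachine D P).Step x y) (x := r) ?_ hr'
    rcases step_shape D P hr' with ⟨w, b, rfl⟩ | ⟨z, b, u, v, -, rfl⟩
    · obtain ⟨z, u, v, hr, hM, -⟩ := run_to_answer D P hb hD w b 1
      exact acc_of_terminal (fun _ _ _ => step_functional) (.head (step_init w b) hr)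
        (fun _ => no_step_halting D P hM)
    · obtain ⟨z', u', v', hr, hM⟩ := row_terminates D P hb hD z b u v
      exact acc_of_terminal (fun _ _ _ => step_functional) hr (fun _ => no_step_halting D P hM)
  correct w mode := by
    obtain ⟨z, u, v, hr, hM, hans⟩ := run_to_answer D P hb hD w mode 1
    have hr' := ReflTransGen.head (step_init (P := P) (D := D) w mode) hr
    have key : (rowMachine D P).Halted (row z mode u v) ↔ (P w ↔ mode = true) := by
      rw [halted_row]
      simp only [hM, true_and]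
      rw [← hans]
      cases mode <;> simp
    refine ⟨fun ⟨r, h1, h2⟩ => ?_, fun h => ⟨_, hr', key.2 h⟩⟩
    obtain rfl := terminal_unique (fun _ _ _ => step_functional) h1 hr'
      (fun _ => halted_stops h2) (fun _ => no_step_halting D P hM)
    exact key.1 h2

end

end Vale.Agent.P193.Machine

namespace Vale.Agent.P193

open Turing Machine

/-- Every computable predicate on words has a lawful row machine. -/
theorem exists_rowMachine {n : ℕ} (P : List (Fin n) → Prop) (h : ComputablePred P) :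
    ∃ M : RowMachine P, M.Lawful := by
  classical
  obtain ⟨Γ, Λ, iΓ, fΓ, iΛ, M, S, a₀, β, ans, ss, hdec⟩ := exists_decider P h
  let D : Data n Γ {q // q ∈ S} :=
    { M := fun q x => if h : (M q.1 x).isSome then
        some (⟨((M q.1 x).get h).1, Finset.mem_coe.1 (ss.2 (Option.get_mem h) q.2)⟩,
          ((M q.1 x).get h).2) else none
      q0 := ⟨default, ss.1⟩
      a0 := a₀
      β := β
      ans := ans
      blank := default }
  let val : TM0.Cfg Γ {q // q ∈ S} → TM0.Cfg Γ Λ := fun c => ⟨c.q.1, c.Tape⟩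
  have hval : ∀ c, TM0.step M (val c) = (tmStep D c).map val := by
    rintro ⟨q, T⟩
    simp only [tmStep, TM0.step, D, val]
    by_cases hh : (M q.1 T.head).isSome
    · rw [dif_pos hh]
      conv_lhs => rw [← Option.some_get hh]
      rfl
    · rw [dif_neg hh, Option.not_isSome_iff_eq_none.1 hh]
      rfl
  refine ⟨rowMachine D P, lawful D P rfl fun w => ?_⟩
  obtain ⟨c, hc, hstop, hans⟩ := hdec w
  have hstart : val (sem (z0 D w)) =
      TM0.init (a₀ :: w.flatMap fun i => (β i).1 :: (β i).2) := by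
    simp [val, sem, z0, D, TM0.init, Tape.mk₁, Tape.mk₂, Tape.mk', cellsOf, List.map_flatMap,
      Function.comp_def]
  have hlift : ∀ e d, Relation.ReflTransGen (fun a b => b ∈ TM0.step M a) e d →
      ∀ c0, val c0 = e → ∃ c', Relation.ReflTransGen (fun a b => b ∈ tmStep D a) c0 c' ∧
        val c' = d := by
    intro e d hed
    induction hed with
    | refl => exact fun c0 h0 => ⟨c0, .refl, h0⟩
    | tail _ hlast ih =>
      intro c0 h0
      obtain ⟨c', hc', rfl⟩ := ih c0 h0
      rw [hval, Option.mem_def, Option.map_eq_some_iff] at hlast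
      obtain ⟨c'', h1, h2⟩ := hlast
      exact ⟨c'', hc'.tail h1, h2⟩
  obtain ⟨c', hc', rfl⟩ := hlift _ _ hc _ hstart
  refine ⟨c', hc', ?_, hans⟩
  rw [hval, Option.map_eq_none_iff] at hstop
  exact hstop

end Vale.Agent.P193
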