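import Vale.Agent.P193.Full.Glue
import Vale.Agent.P193.Full.Machine
import Vale.Agent.P193.Full.Ambient.Main

/-! The data of the core model exist for every finitely generated group with decidable
word problem. -/

namespace Vale.Agent.P193

open Classical in
/-- An ambient group, a row machine for its word problem and a free embedding give good data. -/
theorem exists_good_data {G : Type} [Group G] (a : Ambient G) :
    ∃ d : Core.Data, Core.Good d ∧ ∃ f : G →* d.Γ₀, Function.Injective f := by
  let := a.group
  have hP : ComputablePred fun w : List (Fin a.n) => (w.reverse.map a.gen).prod = 1 :=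
    Computable.computablePred (a.wp.decide.comp Computable.list_reverse)
  obtain ⟨M, hM⟩ := exists_rowMachine _ hP
  have := M.fintypeA
  have : Nonempty M.A := ⟨M.first⟩
  obtain ⟨e, he, hfin⟩ := Amb.finiteIndexFree (M.A × Bool) inferInstance inferInstance
  let d : Core.Data :=
    { Γ₀ := a.Γ₀
      group := a.group
      subGens := Finset.univ.image fun i => (a.gen i).1
      n := a.n
      gen := a.gen
      P := fun w => (w.reverse.map a.gen).prod = 1
      M := M
      emb2 := e }
  refine ⟨d, ⟨hM, fun w => Iff.rfl, a.gen_surj, ?_, a.mif, a.mif_free, he, hfin⟩,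
    a.emb, a.emb_inj⟩
  refine (Subgroup.eq_top_iff' _).2 fun x => ?_
  obtain ⟨w, hw⟩ := a.gen_surj (x, 1, 1)
  have hx : x = ((w.map a.gen).map (MonoidHom.fst _ _)).prod := by
    rw [← map_list_prod, hw]; rfl
  rw [hx]
  refine Subgroup.list_prod_mem _ fun y hy => Subgroup.subset_closure ?_
  simp only [List.mem_map, List.map_map] at hy
  obtain ⟨i, -, rfl⟩ := hy
  simp [d]

/-- The data of the route exist. -/
theorem hasData : HasData := fun _ _ _ gen hgen hwp =>
  exists_good_data (Amb.exists_ambient gen hgen hwp).some

end Vale.Agent.P193
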