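import Mathlib.GroupTheory.PresentedGroup
import Mathlib.GroupTheory.Perm.Basic
import Mathlib.Data.Set.Finite.Basic
import Mathlib.Logic.Equiv.Basic

/-! Swap groups of a space that splits in two halves, tensored with a coefficient monoid of
partial bijections. Shared definitions for the P193 route (spec: team note 1232). -/

namespace Vale.Agent.P193

universe u

/-- A space identified with two copies of itself. -/
structure Halving (X : Type u) where
  cons : Bool × X ≃ X

variable {X : Type u}

/-- Prepend a word of bits. -/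
def Halving.pre (H : Halving X) : List Bool → X → X
  | [], x => x
  | c :: w, x => H.cons (c, H.pre w x)

/-- Graphs of partial bijections. -/
def IsPB (m : Set (X × X)) : Prop :=
  (∀ x y z, (x, y) ∈ m → (x, z) ∈ m → y = z) ∧ ∀ x y z, (x, z) ∈ m → (y, z) ∈ m → x = y

/-- Domain of a graph. -/
def gdom (m : Set (X × X)) : Set X := {x | ∃ y, (x, y) ∈ m}

/-- Range of a graph. -/
def gran (m : Set (X × X)) : Set X := {y | ∃ x, (x, y) ∈ m}

/-- Inverse of a graph. -/
def ginv (m : Set (X × X)) : Set (X × X) := {p | (p.2, p.1) ∈ m}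

/-- Composite: first `m`, then `n`. -/
def gcomp (m n : Set (X × X)) : Set (X × X) := {p | ∃ y, (p.1, y) ∈ m ∧ (y, p.2) ∈ n}

/-- Identity on a set. -/
def gid (s : Set X) : Set (X × X) := {p | p.1 = p.2 ∧ p.1 ∈ s}

/-- An inverse monoid of coefficient graphs, commuting with prepending a bit. -/
structure Coeff (H : Halving X) where
  mem : Set (X × X) → Prop
  pb : ∀ m, mem m → IsPB m
  bit : ∀ m, mem m → ∀ c d x y, (H.cons (c, x), H.cons (d, y)) ∈ m ↔ c = d ∧ (x, y) ∈ m
  one_mem : mem (gid Set.univ)
  inv_mem : ∀ m, mem m → mem (ginv m)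
  comp_mem : ∀ m n, mem m → mem n → mem (gcomp m n)
  compl_mem : ∀ m, mem m → mem (gid (gdom m)ᶜ)
  union_mem : ∀ m n, mem m → mem n → Disjoint (gdom m) (gdom n) →
    Disjoint (gran m) (gran n) → mem (m ∪ n)

/-- The piece that sends prefix `v` to prefix `w` with coefficient `m`. -/
def piece (H : Halving X) (v w : List Bool) (m : Set (X × X)) : Set (X × X) :=
  (fun p => (H.pre v p.1, H.pre w p.2)) '' m

/-- Finite unions of pieces that are partial bijections with disjoint domain and range. -/
def IsBis {H : Halving X} (M : Coeff H) (b : Set (X × X)) : Prop :=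
  IsPB b ∧ Disjoint (gdom b) (gran b) ∧
    ∃ l : List (List Bool × List Bool × Set (X × X)),
      (∀ t ∈ l, M.mem t.2.2) ∧ b = {p | ∃ t ∈ l, p ∈ piece H t.1 t.2.1 t.2.2}

/-- The off-diagonal bisections. -/
abbrev Bis {H : Halving X} (M : Coeff H) := {b : Set (X × X) // IsBis M b}

open Classical in
/-- The involution exchanging the two sides of a graph. -/
noncomputable def swapFun (b : Set (X × X)) (x : X) : X :=
  if h : ∃ y, (x, y) ∈ b then h.choose
  else if h' : ∃ y, (y, x) ∈ b then h'.choose else x

theorem swapFun_invol {b : Set (X × X)} (hb : IsPB b) (hd : Disjoint (gdom b) (gran b)) (x : X) :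
    swapFun b (swapFun b x) = x := by
  classical
  by_cases h : ∃ y, (x, y) ∈ b
  · have e : swapFun b x = h.choose := by rw [swapFun, dif_pos h]
    have hy := h.choose_spec
    have n1 : ¬ ∃ z, (h.choose, z) ∈ b := fun hz =>
      Set.disjoint_left.1 hd hz ⟨x, hy⟩
    have n2 : ∃ z, (z, h.choose) ∈ b := ⟨x, hy⟩
    rw [e, swapFun, dif_neg n1, dif_pos n2]
    exact hb.2 _ _ _ n2.choose_spec hy
  · by_cases h' : ∃ y, (y, x) ∈ b
    · have e : swapFun b x = h'.choose := by rw [swapFun, dif_neg h, dif_pos h']
      have hy := h'.choose_spec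
      have n2 : ∃ z, (h'.choose, z) ∈ b := ⟨x, hy⟩
      rw [e, swapFun, dif_pos n2]
      exact hb.1 _ _ _ n2.choose_spec hy
    · have e : swapFun b x = x := by rw [swapFun, dif_neg h, dif_neg h']
      rw [e, e]

/-- The swap of a bisection as a permutation. -/
noncomputable def swapPerm {H : Halving X} {M : Coeff H} (b : Bis M) : Equiv.Perm X where
  toFun := swapFun b.1
  invFun := swapFun b.1
  left_inv := swapFun_invol b.2.1 b.2.2.1
  right_inv := swapFun_invol b.2.1 b.2.2.1

/-- The group of permutations generated by all swaps. -/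
noncomputable def swapGroup {H : Halving X} (M : Coeff H) : Subgroup (Equiv.Perm X) :=
  Subgroup.closure (Set.range (swapPerm (M := M)))

/-- The schema: additivity, inverse, conjugation. -/
def schemaRels {H : Halving X} (M : Coeff H) : Set (FreeGroup (Bis M)) :=
  {r | (∃ a b c : Bis M, Disjoint (gdom a.1 ∪ gran a.1) (gdom b.1 ∪ gran b.1) ∧
        c.1 = a.1 ∪ b.1 ∧ r = FreeGroup.of a * FreeGroup.of b * (FreeGroup.of c)⁻¹) ∨
    (∃ a b : Bis M, b.1 = ginv a.1 ∧ r = FreeGroup.of a * (FreeGroup.of b)⁻¹) ∨
    ∃ a b c : Bis M, c.1 = (fun p => (swapPerm a p.1, swapPerm a p.2)) '' b.1 ∧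
      r = FreeGroup.of a * FreeGroup.of b * FreeGroup.of a * (FreeGroup.of c)⁻¹}

/-- The abstract swap group. -/
abbrev SchemaGroup {H : Halving X} (M : Coeff H) := PresentedGroup (schemaRels M)

end Vale.Agent.P193
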