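import Vale.Agent.P193.Full.Inj.Table
import Mathlib.GroupTheory.IsPerfect

/-! The schema presents the swap group: the canonical homomorphism is injective with range
`swapGroup M`; the swap group is perfect and consists of all regular permutations.

Main names: `schemaHom`, `schemaHom_tau`, `schemaHom_injective`, `schemaHom_range`,
`schemaEquiv`, `swapGroup_perfect`, `mem_swapGroup_iff`, `mem_swapGroup_of_pieces`. -/

open Classical
open scoped commutatorElement

noncomputable section

namespace Vale.Agent.P193

universe u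

variable {X : Type u} {H : Halving X} {M : Coeff H}

variable (M) in
/-- The schema group is the swap group. -/
def schemaEquiv : SchemaGroup M ≃* swapGroup M :=
  (MonoidHom.ofInjective schemaHom_injective).trans (MulEquiv.subgroupCongr schemaHom_range)

theorem schemaEquiv_of (b : Bis M) :
    (schemaEquiv M (PresentedGroup.of b) : Equiv.Perm X) = swapPerm b :=
  schemaHom_tau b

theorem simple_mem_commutator {v w : List Bool} {μ : Set (X × X)} (hap : Apart v w)
    (hμ : M.mem μ) : tau (simpleBis hap hμ) ∈ commutator (SchemaGroup M) := by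
  let a : SchemaGroup M := tau (simpleBis (hap.append [false] [false]) hμ)
  let β₁ : Bis M := simpleBis (apart_bits v) (idem_gdom hμ)
  let β₂ : Bis M := simpleBis (apart_bits w) (idem_gran hμ)
  let k : SchemaGroup M := tau β₁ * tau β₂
  have hk : k * a * k⁻¹ = tau (simpleBis (hap.append [true] [true]) hμ) := by
    refine tau_conj _ _ _ ?_
    simp only [k, map_mul, schemaHom_tau, simpleBis, piece, Set.image_image]
    refine Set.image_congr ?_
    rintro ⟨x, y⟩ hxy
    have hx : swapPerm β₁ (H.pre (v ++ [false]) x) = H.pre (v ++ [true]) x :=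
      swap_fwd β₁ (piece_mem ⟨rfl, y, hxy⟩)
    have hy : swapPerm β₂ (H.pre (w ++ [false]) y) = H.pre (w ++ [true]) y :=
      swap_fwd β₂ (piece_mem ⟨rfl, x, hxy⟩)
    have hx₂ : swapPerm β₂ (H.pre (v ++ [false]) x) = H.pre (v ++ [false]) x := by
      refine swap_fix _ fun hs => ?_
      rcases supp_piece hs with ⟨_, -, e⟩ | ⟨_, -, e⟩
      · exact (hap.append [false] [false]).incomp _ _ e
      · exact (hap.append [false] [true]).incomp _ _ e
    have hy₁ : swapPerm β₁ (H.pre (w ++ [true]) y) = H.pre (w ++ [true]) y := by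
      refine swap_fix _ fun hs => ?_
      rcases supp_piece hs with ⟨_, -, e⟩ | ⟨_, -, e⟩
      · exact (hap.append [false] [true]).incomp _ _ e.symm
      · exact (hap.append [true] [true]).incomp _ _ e.symm
    simp only [Equiv.Perm.mul_apply, hx₂, hx, hy, hy₁]
  have he : tau (simpleBis hap hμ) = ⁅a, k⁆ := by
    rw [← tau_split hap hμ, ← hk, commutatorElement_def, show a⁻¹ = a from tau_inv _]
    group
    rfl
  rw [he, commutator_def]
  exact Subgroup.commutator_mem_commutator (Subgroup.mem_top _) (Subgroup.mem_top _)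

theorem schemaGroup_perfect : Group.IsPerfect (SchemaGroup M) := by
  refine ⟨eq_top_iff.2 ?_⟩
  rw [← closure_simples, Subgroup.closure_le]
  rintro _ ⟨c, v, w, m, hm, rfl⟩
  exact simple_mem_commutator _ hm

theorem swapGroup_perfect : Group.IsPerfect (swapGroup M) :=
  have := schemaGroup_perfect (M := M)
  Group.IsPerfect.ofSurjective (f := (schemaEquiv M).toMonoidHom) (schemaEquiv M).surjective

theorem mem_swapGroup_iff {σ : Equiv.Perm X} : σ ∈ swapGroup M ↔ Reg M (graphOf σ) :=
  SetLike.ext_iff.1 tableGroup_eq.symm σ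

theorem mem_swapGroup_of_pieces {σ : Equiv.Perm X}
    (l : List (List Bool × List Bool × Set (X × X))) (hl : ∀ t ∈ l, M.mem t.2.2)
    (h : ∀ x y, σ x = y ↔ ∃ t ∈ l, (x, y) ∈ piece H t.1 t.2.1 t.2.2) : σ ∈ swapGroup M :=
  mem_swapGroup_iff.2 ⟨l, hl, Set.ext fun ⟨x, y⟩ => h x y⟩

end Vale.Agent.P193
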