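import Vale.Agent.P193.Full.Core.Assemble
import Vale.Agent.P193.Full.Core.Empty.Glue.Wire

/-! The Boone-Higman conjecture. -/

namespace Vale.Agent.P193

/-- Every finitely generated group with decidable word problem embeds in a finitely presented
simple group. -/
theorem booneHigman : BooneHigman :=
  booneHigman_of_empty fun d _ => Core.Inst.emptyPart d

end Vale.Agent.P193
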