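import Mathlib.GroupTheory.FreeGroup.Reduce
import Vale.Agent.P193.Full.Sys
import Vale.Agent.P193.Full.Interfaces

/-! The semantic core model of the P193 route: a countable set of points with finitely many
partial bijections (spec: team note 1232). -/

namespace Vale.Agent.P193.Core


/-- States of the automaton recognising the protected words; `out` is outside. -/
inductive Pat where
  | bd (i : Bool)
  | step (i : Bool) (past : Bool)
  | gPre
  | gHead
  | gDone
  | out
  deriving DecidableEq

/-- The protected states. -/
def Pat.inL : Pat → Bool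
  | .bd _ => true
  | .step _ _ => true
  | .gDone => true
  | _ => false

/-- States of the path graph; `i` is the parity of the row being read. -/
inductive St (A Q Qh : Type) where
  | guess
  | bd (i : Bool)
  | fin
  | step (i : Bool) (q : Q)
  | halt (i : Bool) (q : Qh)
  | scan (p : Pat) (prev : (A × Bool) × Bool)

/-- Kinds of edges. -/
inductive Kind (n : ℕ) where
  | letter (i : Fin n)
  | junk
  | other

/-- Data fixing a core model. -/
structure Data where
  Γ₀ : Type
  group : Group Γ₀
  subGens : Finset Γ₀
  n : ℕ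
  gen : Fin n → Γ₀ × FreeGroup (Fin 2) × FreeGroup (Fin 2)
  P : List (Fin n) → Prop
  M : RowMachine P
  emb2 : FreeGroup (M.A × Bool) →* FreeGroup (Fin 2)

attribute [instance] Data.group

variable (d : Data)

/-- The inner group. -/
abbrev Inner := d.Γ₀ × FreeGroup (Fin 2) × FreeGroup (Fin 2)

/-- Offset letters: a row letter with a parity. -/
abbrev Ltr := d.M.A × Bool

/-- The outer group. -/
abbrev Outer := d.Γ₀ × FreeGroup (Ltr d) × FreeGroup (Ltr d)

/-- The outer group inside the inner one. -/
def toInner : Outer d →* Inner d :=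
  (MonoidHom.id d.Γ₀).prodMap (d.emb2.prodMap d.emb2)

/-- States. -/
abbrev State := St d.M.A d.M.Q d.M.Qh

/-- An edge: source, spelled word, erased word, target, kind. -/
structure Edge where
  src : State d
  tgt : State d
  p : List (Ltr d × Bool)
  q : List (Ltr d)
  kind : Kind d.n

/-- A signed letter may follow another one in a reduced word. -/
def Follows (s s' : Ltr d × Bool) : Prop := s' ≠ (s.1, !s.2)

/-- An emitted word carries the other parity. -/
def emit (i : Bool) (b : List d.M.A) : List (Ltr d) := b.map fun x => (x, !i)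

open Classical in
/-- Reading a signed letter in the protected-word automaton. -/
noncomputable def patNext : Pat → Ltr d × Bool → Pat
  | .bd i, s => if s.2 = true ∧ s.1.2 = i then .bd i else .out
  | .step i past, s =>
    if s.2 = true ∧ s.1.2 = (!i) then .step i true
    else if s.2 = true ∧ past = false then .step i false
    else .out
  | .gPre, s =>
    if ∃ j, s = ((d.M.letter j, false), true) then .gPre
    else if ∃ b, s = ((d.M.head b, false), true) then .gHead
    else .out
  | .gHead, s => if s = ((d.M.last, false), true) then .gDone else .out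
  | _, _ => .out

/-- States that start a flood: source, automaton state and admissible first signed letters. -/
inductive FloodStart : State d → Pat → Ltr d × Bool → Prop
  | guess (s) : FloodStart .guess .gPre s
  | bd (i) : FloodStart (.bd i) (.bd i) ((d.M.first, i), true)
  | step (i q a) : a ≠ d.M.first → FloodStart (.step i q) (.step i false) ((a, i), true)

/-- The edges of the graph. -/
inductive Edge.OK : Edge d → Prop
  | letter (j) : OK ⟨.guess, .guess, [((d.M.letter j, false), false)], [], .letter j⟩
  | gjunk (s) : OK ⟨.guess, .guess, [s], [], .junk⟩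
  | reach (t) : t ≠ .guess → OK ⟨.guess, t, [], [], .junk⟩
  | exit : OK ⟨.guess, .bd false, [((d.M.first, false), false)], [], .other⟩
  | stepFirst (i b q') : (d.M.start, d.M.first, b, q') ∈ d.M.trans →
      OK ⟨.bd i, .step i q', [((d.M.first, i), true)], emit d i b, .other⟩
  | stepMid (i q a b q') : (q, a, b, q') ∈ d.M.trans → a ≠ d.M.first → a ≠ d.M.last →
      OK ⟨.step i q, .step i q', [((a, i), true)], emit d i b, .other⟩
  | stepLast (i q b q') : (q, d.M.last, b, q') ∈ d.M.trans → d.M.accepts q' →
      OK ⟨.step i q, .bd (!i), [((d.M.last, i), true)], emit d i b, .other⟩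
  | haltFirst (i q') : d.M.hnext d.M.hstart d.M.first = some q' →
      OK ⟨.bd i, .halt i q', [((d.M.first, i), true)], [], .other⟩
  | haltMid (i q a q') : d.M.hnext q a = some q' → a ≠ d.M.first → a ≠ d.M.last →
      OK ⟨.halt i q, .halt i q', [((a, i), true)], [], .other⟩
  | haltLast (i q q') : d.M.hnext q d.M.last = some q' → d.M.haccepts q' →
      OK ⟨.halt i q, .fin, [((d.M.last, i), true)], [], .other⟩
  | flood (src p s) : FloodStart d src p s →
      OK ⟨src, .scan (patNext d p s) s, [s], [], .other⟩
  | floodEnd (src p s) : FloodStart d src p s → (patNext d p s).inL = false →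
      OK ⟨src, .fin, [s], [], .other⟩
  | scan (p s s') : Follows d s s' → OK ⟨.scan p s, .scan (patNext d p s') s', [s'], [], .other⟩
  | scanEnd (p s s') : Follows d s s' → (patNext d p s').inL = false →
      OK ⟨.scan p s, .fin, [s'], [], .other⟩

/-- The free group holding offsets. -/
abbrev FA := FreeGroup (Ltr d)

/-- The spelled part of an edge. -/
def Edge.pval (e : Edge d) : FA d := FreeGroup.mk e.p

/-- The erased part of an edge. -/
def Edge.qval (e : Edge d) : FA d := FreeGroup.mk (e.q.map fun a => (a, true))

/-- Paths to the final state. -/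
inductive Path : State d → Type
  | nil : Path .fin
  | cons (e : Edge d) (he : e.OK) (σ : Path e.tgt) : Path e.src

/-- The offset of a path. -/
def offset : {s : State d} → Path d s → FA d
  | _, .nil => 1
  | _, .cons e _ σ => e.pval * offset σ * e.qval⁻¹

/-- The guessed element of a path. -/
def guessVal : {s : State d} → Path d s → Inner d
  | _, .nil => 1
  | _, .cons e _ σ =>
    match e.kind with
    | .letter i => d.gen i * guessVal σ
    | _ => 1

/-- No junk edge is used while guessing. -/
def clean : {s : State d} → Path d s → Prop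
  | _, .nil => True
  | _, .cons e _ σ =>
    match e.kind with
    | .letter _ => clean σ
    | .junk => False
    | .other => True

/-- Stacks; `true` marks stacks of the tag without point predicate. -/
inductive Wd : Bool → Type
  | omC {s : State d} (σ : Path d s) (c : Wd true) (h : Outer d) : Wd true
  | tpush (c : Wd false) : Wd true
  | base : Wd false
  | theta {s : State d} (σ : Path d s) (b : Bool) (w : Wd b) (g : Inner d) : Wd false
  | omD {s : State d} (σ : Path d s) (c : Wd false) (h : Outer d) : Wd false
  | omK (σ : Path d .guess) (c : Wd false) (h : Outer d) : Wd false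

/-- Points. -/
structure Point where
  st : State d
  σ : Path d st
  tag : Bool
  w : Wd d tag
  g : Inner d
  h : Outer d

/-- The offset seen from a point. -/
def zval (x : Point d) : FA d := x.h.2.1⁻¹ * offset d x.σ * x.h.2.2

/-- The starting offset of a mode. -/
def cval (b : Bool) : FA d :=
  FreeGroup.mk [((d.M.head b, false), true), ((d.M.last, false), true)]

/-- The generating partial bijections. -/
inductive Gen : Set (Point d × Point d) → Prop
  | atState (s : State d) : Gen (gid {x | x.st = s})
  | edge (e : Edge d) (he : e.OK) : Gen {p | ∃ σ b w g h, p.1 = ⟨e.tgt, σ, b, w, g, h⟩ ∧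
      p.2 = ⟨e.src, .cons e he σ, b, w, g, (1, e.pval, e.qval) * h⟩}
  | outer₀ (k : d.Γ₀) : k ∈ d.subGens → Gen {p | p.2 = { p.1 with h := p.1.h * (k, 1, 1) }}
  | outer₁ (a : Ltr d) : Gen {p | p.2 = { p.1 with h := p.1.h * (1, FreeGroup.of a, 1) }}
  | outer₂ (a : Ltr d) : Gen {p | p.2 = { p.1 with h := p.1.h * (1, 1, FreeGroup.of a) }}
  | inner (i : Fin d.n) : Gen {p | p.2 = { p.1 with g := p.1.g * d.gen i }}
  | zOne : Gen (gid {x | zval d x = 1})
  | zFront (s : Ltr d × Bool) [DecidableEq (Ltr d)] :
      Gen (gid {x | (zval d x).toWord.head? = some s})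
  | hOne : Gen (gid {x | x.h = 1})
  | tagC : Gen (gid {x | x.tag = true})
  | cleanSet : Gen (gid {x | x.st = .guess ∧ clean d x.σ})
  | gOne : Gen (gid {x | x.tag = false ∧ x.g = 1})
  | kSet : Gen (gid {x | x.tag = false ∧ x.st = .guess ∧ guessVal d x.σ * x.g = 1})
  | uMap₀ : Gen {p | p.1.st = .guess ∧ p.1.tag = true ∧
      p.2 = { p.1 with g := p.1.g * ((guessVal d p.1.σ).1, 1, 1) }}
  | uMap₁ : Gen {p | p.1.st = .guess ∧ p.1.tag = true ∧
      p.2 = { p.1 with g := p.1.g * (1, (guessVal d p.1.σ).2.1, 1) }}
  | uMap₂ : Gen {p | p.1.st = .guess ∧ p.1.tag = true ∧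
      p.2 = { p.1 with g := p.1.g * (1, 1, (guessVal d p.1.σ).2.2) }}
  | theta : Gen {p | p.2 = ⟨.fin, .nil, false, .theta p.1.σ p.1.tag p.1.w p.1.g, toInner d p.1.h, 1⟩}
  | omC : Gen {p | ∃ s, ∃ σ : Path d s, ∃ c g h, p.1 = ⟨s, σ, true, c, g, h⟩ ∧
      p.2 = ⟨.fin, .nil, true, .omC σ c h, g, 1⟩}
  | omD : Gen {p | ∃ s, ∃ σ : Path d s, ∃ c g h, p.1 = ⟨s, σ, false, c, g, h⟩ ∧
      p.2 = ⟨.fin, .nil, false, .omD σ c h, g, 1⟩}
  | omK : Gen {p | ∃ σ : Path d .guess, ∃ c g h, p.1 = ⟨.guess, σ, false, c, g, h⟩ ∧
      p.2 = ⟨.fin, .nil, false, .omK σ c h, guessVal d σ * g, 1⟩}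
  | tMap : Gen {p | ∃ c g, p.1 = ⟨.fin, .nil, false, c, g, 1⟩ ∧
      p.2 = ⟨.fin, .nil, true, .tpush c, g, 1⟩}

/-- The standing hypotheses on the data. -/
structure Good : Prop where
  lawful : d.M.Lawful
  pred : ∀ w, d.P w ↔ (w.reverse.map d.gen).prod = 1
  gen_surj : ∀ g, ∃ w : List (Fin d.n), (w.map d.gen).prod = g
  subGens_top : Subgroup.closure (d.subGens : Set d.Γ₀) = ⊤
  mif : MixedIdentityFree d.Γ₀
  mif_free : MixedIdentityFree (FreeGroup (Fin 2))
  emb2_inj : Function.Injective d.emb2
  emb2_index : d.emb2.range.FiniteIndex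

end Vale.Agent.P193.Core
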