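import Vale.Agent.P193.Full.Statement
import Vale.Agent.P193.Full.Model
import Vale.Agent.P193.Full.Calc.Frame

/-! The glue of the P193 route: the statement follows from the outputs of the modules. -/

namespace Vale.Agent.P193

open Calc

/-- The coefficient monoid of a core datum. -/
abbrev coreCoeff (d : Core.Data) : Coeff (hv (Core.Point d)) :=
  coeffOf {m | Core.Gen d m}

/-- The group of the map calculus of a core datum. -/
noncomputable abbrev coreGroup (d : Core.Data) : Subgroup (Equiv.Perm (Sp (Core.Point d))) :=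
  swapGroup (coreCoeff d)

/-- Data of a finitely generated group with decidable word problem exist. -/
def HasData : Prop :=
  ∀ (G : Type) [Group G] (n : ℕ) (gen : Fin n → G),
    Subgroup.closure (Set.range gen) = ⊤ →
    ComputablePred (fun w : List (Fin n × Bool) =>
      (w.map fun p => if p.2 then gen p.1 else (gen p.1)⁻¹).prod = 1) →
    ∃ d : Core.Data, Core.Good d ∧ ∃ f : G →* d.Γ₀, Function.Injective f

/-- The inputs of the endgame for a core datum. -/
structure EndgameInputs (d : Core.Data) : Prop where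
  countable : Countable (Sp (Core.Point d))
  infinite : Infinite (Sp (Core.Point d))
  fp : Group.IsFinitelyPresented (coreGroup d)
  pairs : ∀ a b a' b' : Sp (Core.Point d), a ≠ b → a' ≠ b' →
    ∃ s ∈ coreGroup d, s a = a' ∧ s b = b'
  stab : ∃ y : Sp (Core.Point d), (MulAction.stabilizer (coreGroup d) y).FG
  embeds : ∃ f : d.Γ₀ →* coreGroup d, Function.Injective f

/-- The endgame. -/
def Endgame : Prop :=
  ∀ (Y : Type) (L : Subgroup (Equiv.Perm Y)), Countable Y → Infinite Y →
    Group.IsFinitelyPresented L →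
    (∀ a b a' b' : Y, a ≠ b → a' ≠ b' → ∃ s ∈ L, s a = a' ∧ s b = b') →
    (∃ y : Y, (MulAction.stabilizer L y).FG) →
    ∃ (H : Type) (_ : Group H), IsSimpleGroup H ∧ Group.IsFinitelyPresented H ∧
      ∃ f : L →* H, Function.Injective f

theorem booneHigman_of (hA : HasData) (hC : ∀ d, Core.Good d → EndgameInputs d) (hE : Endgame) :
    BooneHigman := by
  intro G _ n gen hgen hwp
  obtain ⟨d, hd, f, hf⟩ := hA G n gen hgen hwp
  obtain ⟨hc, hi, hfp, hp, hs, g, hg⟩ := hC d hd
  obtain ⟨H, iH, h1, h2, e, he⟩ := hE _ (coreGroup d) hc hi hfp hp hs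
  exact ⟨H, iH, h1, h2, e.comp (g.comp f), he.comp (hg.comp hf)⟩

end Vale.Agent.P193
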