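import Vale.Agent.P193.Full.Orbit.Stabiliser
import Vale.Agent.P193.Full.Orbit.Count
import Vale.Agent.P193.Full.Glue

/-! The semantic inputs of the endgame for a core model: the space is countable and infinite,
the swap group is transitive on ordered pairs of distinct points, its point stabilisers are
finitely generated when it is, and it contains the group of the datum. -/

namespace Vale.Agent.P193.Orbit

open Calc Core

variable {d : Data}

theorem countable_space (hd : Good d) : Countable (Sp (Point d)) := by
  have := countable_point hd
  infer_instance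

theorem infinite_space : Infinite (Sp (Point d)) :=
  Infinite.of_injective (fun f : Cn => ((f, base₀ d) : Sp (Point d)))
    fun _ _ h => (Prod.mk.inj h).1

theorem core_pairs (hd : Good d) : ∀ a b a' b' : Sp (Point d), a ≠ b → a' ≠ b' →
    ∃ s ∈ coreGroup d, s a = a' ∧ s b = b' :=
  fun _ _ _ _ h h' => pairs_transitive (pointwise hd) h h'

theorem core_stab (hd : Good d) (hfg : Group.FG (coreGroup d)) :
    ∃ y : Sp (Point d), (MulAction.stabilizer (coreGroup d) y).FG :=
  ⟨(zero, base₀ d), stabilizer_fg (pointwise hd) hfg _⟩

theorem core_stab_of_fp (hd : Good d) (hfp : Group.IsFinitelyPresented (coreGroup d)) :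
    ∃ y : Sp (Point d), (MulAction.stabilizer (coreGroup d) y).FG :=
  core_stab hd (by
    obtain ⟨n, φ, hφ, -⟩ := hfp.out
    exact Group.fg_of_surjective hφ)

/-- Inner right translation of points. -/
def innerPoint (d : Data) (k : Inner d) : Equiv.Perm (Point d) where
  toFun x := { x with g := x.g * k }
  invFun x := { x with g := x.g * k⁻¹ }
  left_inv x := by simp
  right_inv x := by simp

/-- Inner right translation of the space. -/
def innerSpace (d : Data) (k : Inner d) : Equiv.Perm (Sp (Point d)) :=
  (Equiv.refl Cn).prodCongr (innerPoint d k)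

theorem innerSpace_mem (hd : Good d) (k : Inner d) : innerSpace d k ∈ coreGroup d := by
  refine mem_swapGroup_iff.2 ?_
  have e : graphOf (innerSpace d k) = piece (hv (Point d)) [] [] (lift (innerGraph d k)) := by
    show _ = id '' _
    rw [Set.image_id]
    ext ⟨⟨f, x⟩, g, y⟩
    show innerSpace d k (f, x) = (g, y) ↔ f = g ∧ y = _
    simp [innerSpace, innerPoint, eq_comm]
  rw [e]
  exact reg_piece (mem_inner hd k)

theorem core_embeds (hd : Good d) : ∃ f : d.Γ₀ →* coreGroup d, Function.Injective f := by
  refine ⟨MonoidHom.mk' (fun k => ⟨innerSpace d ((k, 1, 1) : Inner d)⁻¹, innerSpace_mem hd _⟩)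
    fun k l => Subtype.ext (Equiv.ext fun ⟨f, x⟩ => ?_), fun k l h => ?_⟩
  · simp [innerSpace, innerPoint, mul_assoc]
  · have h := congrArg (fun p : coreGroup d => ((p : Equiv.Perm (Sp (Point d)))
      (zero, base₀ d)).2.g) h
    simpa [innerSpace, innerPoint, base₀] using h

/-- All inputs of the endgame, given that the core group is finitely presented. -/
theorem endgameInputs (hd : Good d) (hfp : Group.IsFinitelyPresented (coreGroup d)) :
    EndgameInputs d :=
  ⟨countable_space hd, infinite_space, hfp, core_pairs hd, core_stab_of_fp hd hfp,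
    core_embeds hd⟩

end Vale.Agent.P193.Orbit
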