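import Vale.Agent.P193.Full.Assembly
import Vale.Agent.P193.Full.Orbit
import Vale.Agent.P193.Full.Core.Inst.Words
import Vale.Agent.P193.Full.Calc.Maps.Main
import Vale.Agent.P193.Full.Twisted.Endgame

/-! The statement from the calculus of the core instance: the kernel of the map calculus is
central, and the endgame holds. -/

namespace Vale.Agent.P193

open Calc Core

/-- The hypotheses of the map calculus hold eventually in every core frame. -/
def CoreCalculus : Prop :=
  ∀ (d : Data) [DecidableEq d.M.A] (hG : Good d) (F : Calc.Frame (Point d))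
    (hF : Inst.IsCore F),
    ∃ (hp : commutator (Vgrp (Point d)) = ⊤) (hav : Avoids (Vgrp (Point d))),
      F.Ev (Frame.Calculus (Inst.coreSys hG hF) hp hav)

theorem coreGroup_fp (hC : CoreCalculus) {d : Data} (hd : Good d) :
    Group.IsFinitelyPresented (coreGroup d) := by
  classical
  have : Nonempty (Point d) := ⟨Orbit.base₀ d⟩
  obtain ⟨F, hF⟩ := Inst.exists_coreFrame hd
  obtain ⟨hp, hav, hc⟩ := hC d hd F hF
  refine F.fp_transfer {m | Core.Gen d m} (fun m hm _ => hF.exists_index hm) (fun i => ?_)
    (Frame.fp_of_calculus hc fun D hb hl hg => D.kernelCentral hb hl hg)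
  have h : F.g i ∈ Inst.genSet d := hF ▸ ⟨i, rfl⟩
  exact h

/-- The statement follows from the calculus of the core instance. -/
theorem booneHigman_main (hC : CoreCalculus) : BooneHigman :=
  booneHigman_of hasData (fun _ hd => Orbit.endgameInputs hd (coreGroup_fp hC hd)) exists_simple_fp

end Vale.Agent.P193
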