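import Mathlib.GroupTheory.FinitelyPresentedGroup
import Mathlib.GroupTheory.Subgroup.Simple
import Mathlib.Computability.RE

/-! The target statement of the P193 route. -/

namespace Vale.Agent.P193

/-- Every finitely generated group with decidable word problem embeds in a finitely presented
simple group. -/
def BooneHigman : Prop :=
  ∀ (G : Type) [Group G] (n : ℕ) (gen : Fin n → G),
    Subgroup.closure (Set.range gen) = ⊤ →
    ComputablePred (fun w : List (Fin n × Bool) =>
      (w.map fun p => if p.2 then gen p.1 else (gen p.1)⁻¹).prod = 1) →
    ∃ (H : Type) (_ : Group H), IsSimpleGroup H ∧ Group.IsFinitelyPresented H ∧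
      ∃ f : G →* H, Function.Injective f

end Vale.Agent.P193
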